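import Vale.Agent.P272.K.AMP.Iface
import Vale.Agent.P272.K.C2.PosLin
import Vale.Agent.P272.K.N.MaxP
import Vale.Agent.P272.K.Asm.Weak

/-! Pointwise calculus of `hess`, `dd`, `lapX`, `gradX`: sums, products, compositions, maximum
principle. -/

open scoped Manifold ContDiff ComplexOrder Topology
open Complex Filter Set

set_option linter.all false

noncomputable section

namespace Vale.Agent.P272.K.AMP

open Vale.Agent.P272.K

variable {n : ℕ}

section loc

variable {f h : Cm n → ℝ} {φ : ℝ → ℝ} {z : Cm n} {i j k : Fin n}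

lemma ofReal_diff (hf : DifferentiableAt ℝ f z) :
    DifferentiableAt ℝ (fun y => ((f y : ℝ) : ℂ)) z :=
  Complex.ofRealCLM.differentiableAt.comp z hf

lemma dz_real_add (hf : DifferentiableAt ℝ f z) (hh : DifferentiableAt ℝ h z) :
    dz i (fun y => ((f y + h y : ℝ) : ℂ)) z =
      dz i (fun y => (f y : ℂ)) z + dz i (fun y => (h y : ℂ)) z := by
  have := dz_add (i := i) (ofReal_diff hf) (ofReal_diff hh)
  simpa using this

lemma dzb_real_add (hf : DifferentiableAt ℝ f z) (hh : DifferentiableAt ℝ h z) :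
    dzb i (fun y => ((f y + h y : ℝ) : ℂ)) z =
      dzb i (fun y => (f y : ℂ)) z + dzb i (fun y => (h y : ℂ)) z := by
  have := dzb_add (i := i) (ofReal_diff hf) (ofReal_diff hh)
  simpa using this

lemma dz_real_mul (hf : DifferentiableAt ℝ f z) (hh : DifferentiableAt ℝ h z) :
    dz i (fun y => ((f y * h y : ℝ) : ℂ)) z =
      dz i (fun y => (f y : ℂ)) z * (h z : ℂ) + (f z : ℂ) * dz i (fun y => (h y : ℂ)) z := by
  have := dz_mul (i := i) (ofReal_diff hf) (ofReal_diff hh)
  simpa using this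

lemma dzb_real_mul (hf : DifferentiableAt ℝ f z) (hh : DifferentiableAt ℝ h z) :
    dzb i (fun y => ((f y * h y : ℝ) : ℂ)) z =
      dzb i (fun y => (f y : ℂ)) z * (h z : ℂ) + (f z : ℂ) * dzb i (fun y => (h y : ℂ)) z := by
  have := dzb_mul (i := i) (ofReal_diff hf) (ofReal_diff hh)
  simpa using this

lemma fderiv_ofReal' (hf : DifferentiableAt ℝ f z) (v : Cm n) :
    fderiv ℝ (fun y => ((f y : ℝ) : ℂ)) z v = ((fderiv ℝ f z v : ℝ) : ℂ) := by
  have h1 : HasFDerivAt (fun y => ((f y : ℝ) : ℂ)) (Complex.ofRealCLM.comp (fderiv ℝ f z)) z :=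
    Complex.ofRealCLM.hasFDerivAt.comp z hf.hasFDerivAt
  rw [h1.fderiv]; rfl

lemma fderiv_comp_real (hφ : DifferentiableAt ℝ φ (f z)) (hf : DifferentiableAt ℝ f z)
    (v : Cm n) : fderiv ℝ (fun y => φ (f y)) z v = deriv φ (f z) * fderiv ℝ f z v := by
  have h1 : HasFDerivAt (fun y => φ (f y)) (deriv φ (f z) • fderiv ℝ f z) z :=
    hφ.hasDerivAt.comp_hasFDerivAt z hf.hasFDerivAt
  rw [h1.fderiv]; rfl

lemma dz_real_comp (hφ : DifferentiableAt ℝ φ (f z)) (hf : DifferentiableAt ℝ f z) :
    dz i (fun y => ((φ (f y) : ℝ) : ℂ)) z = ((deriv φ (f z) : ℝ) : ℂ) * dz i (fun y => (f y : ℂ)) z := by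
  have h1 : DifferentiableAt ℝ (fun y => φ (f y)) z := hφ.comp z hf
  unfold dz
  rw [fderiv_ofReal' h1, fderiv_ofReal' h1, fderiv_ofReal' hf, fderiv_ofReal' hf,
    fderiv_comp_real hφ hf, fderiv_comp_real hφ hf]
  push_cast; ring

lemma dzb_real_comp (hφ : DifferentiableAt ℝ φ (f z)) (hf : DifferentiableAt ℝ f z) :
    dzb i (fun y => ((φ (f y) : ℝ) : ℂ)) z = ((deriv φ (f z) : ℝ) : ℂ) * dzb i (fun y => (f y : ℂ)) z := by
  have h1 : DifferentiableAt ℝ (fun y => φ (f y)) z := hφ.comp z hf
  unfold dzb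
  rw [fderiv_ofReal' h1, fderiv_ofReal' h1, fderiv_ofReal' hf, fderiv_ofReal' hf,
    fderiv_comp_real hφ hf, fderiv_comp_real hφ hf]
  push_cast; ring

/-- for a real function `∂̄_i f` is the conjugate of `∂_i f` -/
lemma dzb_real_eq (f : Cm n → ℝ) (z : Cm n) (i : Fin n) :
    dzb i (fun y => ((f y : ℝ) : ℂ)) z = (starRingEnd ℂ) (dz i (fun y => ((f y : ℝ) : ℂ)) z) := by
  by_cases hf : DifferentiableAt ℝ f z
  · unfold dz dzb
    rw [fderiv_ofReal' hf, fderiv_ofReal' hf]
    simp only [map_div₀, map_sub, map_mul, Complex.conj_ofReal, Complex.conj_I, map_ofNat]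
    ring
  · have h1 : ¬ DifferentiableAt ℝ (fun y => ((f y : ℝ) : ℂ)) z := by
      intro h2
      exact hf (by simpa [Function.comp_def] using (Complex.reCLM.differentiableAt.comp z h2))
    unfold dz dzb
    rw [fderiv_zero_of_not_differentiableAt h1]
    simp

/-- the gradient matrix `(f_i h_{j̄})` -/
def gm (f h : Cm n → ℝ) (z : Cm n) : Matrix (Fin n) (Fin n) ℂ :=
  Matrix.of fun i j => dz i (fun y => ((f y : ℝ) : ℂ)) z * dzb j (fun y => ((h y : ℝ) : ℂ)) z

lemma cHess_mul (hf : ContDiffAt ℝ 2 f z) (hh : ContDiffAt ℝ 2 h z) :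
    cHess (fun y => f y * h y) z =
      (f z : ℂ) • cHess h z + (h z : ℂ) • cHess f z + gm f h z + gm h f z := by
  have hF := ofReal_contDiffAt hf
  have hH := ofReal_contDiffAt hh
  ext a b
  have h1 : dzb b (fun y => ((f y * h y : ℝ) : ℂ)) =ᶠ[𝓝 z] fun y =>
      dzb b (fun y => (f y : ℂ)) y * (h y : ℂ) + (f y : ℂ) * dzb b (fun y => (h y : ℂ)) y := by
    filter_upwards [hf.eventually (by simp), hh.eventually (by simp)] with y hy hy'
    exact dzb_real_mul (hy.differentiableAt (by norm_num)) (hy'.differentiableAt (by norm_num))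
  have d1 : DifferentiableAt ℝ (fun y => (f y : ℂ)) z := hF.differentiableAt (by norm_num)
  have d2 : DifferentiableAt ℝ (fun y => (h y : ℂ)) z := hH.differentiableAt (by norm_num)
  have d3 := differentiableAt_dzb (i := b) hF
  have d4 := differentiableAt_dzb (i := b) hH
  have e1 : dz a (fun y => dzb b (fun y => (f y : ℂ)) y * (h y : ℂ) +
      (f y : ℂ) * dzb b (fun y => (h y : ℂ)) y) z =
      dz a (fun y => dzb b (fun y => (f y : ℂ)) y * (h y : ℂ)) z +
      dz a (fun y => (f y : ℂ) * dzb b (fun y => (h y : ℂ)) y) z :=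
    dz_add (f := fun y => dzb b (fun y => (f y : ℂ)) y * (h y : ℂ))
      (g := fun y => (f y : ℂ) * dzb b (fun y => (h y : ℂ)) y) (d3.mul d2) (d1.mul d4)
  have e2 : dz a (fun y => dzb b (fun y => (f y : ℂ)) y * (h y : ℂ)) z = _ := dz_mul d3 d2
  have e3 : dz a (fun y => (f y : ℂ) * dzb b (fun y => (h y : ℂ)) y) z = _ := dz_mul d1 d4
  rw [cHess_apply, dz_congr h1, e1, e2, e3]
  simp only [Matrix.add_apply, Matrix.smul_apply, gm, Matrix.of_apply, smul_eq_mul, cHess_apply]
  ring

lemma cHess_comp_real (hφ : ContDiffAt ℝ 2 φ (f z)) (hf : ContDiffAt ℝ 2 f z) :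
    cHess (fun y => φ (f y)) z =
      ((deriv φ (f z) : ℝ) : ℂ) • cHess f z + ((deriv (deriv φ) (f z) : ℝ) : ℂ) • gm f f z := by
  have hF := ofReal_contDiffAt hf
  have hφ1 : ContDiffAt ℝ 1 (deriv φ) (f z) := by
    have h0 := hφ.fderiv_right (m := 1) (by norm_num)
    exact (h0.clm_apply contDiffAt_const : ContDiffAt ℝ 1 (fun t => fderiv ℝ φ t 1) (f z))
  have hd : DifferentiableAt ℝ (deriv φ) (f z) := hφ1.differentiableAt (by norm_num)
  have hf0 : DifferentiableAt ℝ f z := hf.differentiableAt (by norm_num)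
  ext a b
  have h1 : dzb b (fun y => ((φ (f y) : ℝ) : ℂ)) =ᶠ[𝓝 z] fun y =>
      ((deriv φ (f y) : ℝ) : ℂ) * dzb b (fun y => (f y : ℂ)) y := by
    filter_upwards [hf.eventually (by simp), hf.continuousAt.eventually (hφ.eventually (by simp))]
      with y hy hy'
    exact dzb_real_comp (hy'.differentiableAt (by norm_num)) (hy.differentiableAt (by norm_num))
  have d1 : DifferentiableAt ℝ (fun y => ((deriv φ (f y) : ℝ) : ℂ)) z :=
    ofReal_diff (hd.comp z hf0)
  rw [cHess_apply, dz_congr h1, dz_mul d1 (differentiableAt_dzb hF), dz_real_comp hd hf0]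
  simp only [Matrix.add_apply, Matrix.smul_apply, gm, Matrix.of_apply, smul_eq_mul, cHess_apply]
  ring

lemma gm_conjTranspose (f h : Cm n → ℝ) (z : Cm n) : (gm f h z).conjTranspose = gm h f z := by
  ext a b
  simp only [Matrix.conjTranspose_apply, gm, Matrix.of_apply, RCLike.star_def, map_mul,
    dzb_real_eq, Complex.conj_conj]
  ring

lemma gm_self_posSemidef (f : Cm n → ℝ) (z : Cm n) : (gm f f z).PosSemidef := by
  have h1 : gm f f z = Matrix.vecMulVec (fun i => dz i (fun y => ((f y : ℝ) : ℂ)) z)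
      (star fun i => dz i (fun y => ((f y : ℝ) : ℂ)) z) := by
    ext a b
    simp only [gm, Matrix.of_apply, Matrix.vecMulVec_apply, Pi.star_apply, RCLike.star_def,
      dzb_real_eq]
  rw [h1]
  exact Matrix.posSemidef_vecMulVec_self_star _

lemma gm_zero_left (h : Cm n → ℝ) (hf : fderiv ℝ f z = 0) : gm f h z = 0 := by
  ext a b
  simp only [gm, Matrix.of_apply, Matrix.zero_apply]
  have : dz a (fun y => ((f y : ℝ) : ℂ)) z = 0 := by
    by_cases hd : DifferentiableAt ℝ f z
    · unfold dz; rw [fderiv_ofReal' hd, fderiv_ofReal' hd, hf]; simp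
    · have h1 : ¬ DifferentiableAt ℝ (fun y => ((f y : ℝ) : ℂ)) z := by
        intro h2
        exact hd (by simpa [Function.comp_def] using (Complex.reCLM.differentiableAt.comp z h2))
      unfold dz
      rw [fderiv_zero_of_not_differentiableAt h1]
      simp
  rw [this, zero_mul]

end loc

/-- the pairing `Re tr (G⁻¹ gm f h)` -/
lemma trace_gm_comm {G : Matrix (Fin n) (Fin n) ℂ} (hG : G.PosDef) (f h : Cm n → ℝ) (z : Cm n) :
    (G⁻¹ * gm f h z).trace.re = (G⁻¹ * gm h f z).trace.re := by
  have h1 : (G⁻¹ * gm f h z).conjTranspose = gm h f z * G⁻¹ := by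
    rw [Matrix.conjTranspose_mul, gm_conjTranspose, hG.inv.1]
  have h2 := congrArg Matrix.trace h1
  rw [Matrix.trace_conjTranspose, Matrix.trace_mul_comm (gm h f z)] at h2
  rw [← h2]
  simp

lemma trace_gm_nonneg {G : Matrix (Fin n) (Fin n) ℂ} (hG : G.PosDef) (f : Cm n → ℝ) (z : Cm n) :
    0 ≤ (G⁻¹ * gm f f z).trace.re :=
  (Complex.le_def.1 (C2.trace_mul_nonneg hG.inv.posSemidef (gm_self_posSemidef f z))).1

section X

variable {X : Type*} [TopologicalSpace X] {g b : Chart n X → Cm n → Matrix (Fin n) (Fin n) ℂ}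
  {u v w : X → ℝ} {e e' : Chart n X} {x : X} {z : Cm n} {φ : ℝ → ℝ}

lemma dd_eq_gm (u v : X → ℝ) (e : Chart n X) (z : Cm n) :
    dd u v e z = gm (fun y => u (e.symm y)) (fun y => v (e.symm y)) z := rfl

variable [ChartedSpace (Cm n) X]

lemma sm_two (hu : SmoothFn (n := n) u) (hx : At e x) :
    ContDiffAt ℝ 2 (fun y => u (e.symm y)) (e x) := (hu e x hx).of_le (by norm_cast)

lemma sm_diff (hu : SmoothFn (n := n) u) (hx : At e x) :
    DifferentiableAt ℝ (fun y => u (e.symm y)) (e x) := (hu e x hx).differentiableAt (by simp)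

lemma hess_add' (hu : SmoothFn (n := n) u) (hv : SmoothFn (n := n) v) (hx : At e x) :
    hess (fun x => u x + v x) e (e x) = hess u e (e x) + hess v e (e x) :=
  cHess_add (sm_two hu hx) (sm_two hv hx)

lemma hess_sub' (hu : SmoothFn (n := n) u) (hv : SmoothFn (n := n) v) (hx : At e x) :
    hess (fun x => u x - v x) e (e x) = hess u e (e x) - hess v e (e x) :=
  cHess_sub (sm_two hu hx) (sm_two hv hx)

lemma hess_const_mul' (c : ℝ) (hu : SmoothFn (n := n) u) (hx : At e x) :
    hess (fun x => c * u x) e (e x) = (c : ℂ) • hess u e (e x) :=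
  cHess_const_mul c (sm_two hu hx)

lemma hess_const' (c : ℝ) (e : Chart n X) (z : Cm n) : hess (fun _ : X => c) e z = 0 :=
  cHess_const c z

lemma hess_mul (hu : SmoothFn (n := n) u) (hv : SmoothFn (n := n) v) (hx : At e x) :
    hess (fun x => u x * v x) e (e x) =
      (u x : ℂ) • hess v e (e x) + (v x : ℂ) • hess u e (e x) + dd u v e (e x) +
        dd v u e (e x) := by
  have := cHess_mul (sm_two hu hx) (sm_two hv hx)
  simp only [hx.left_inv] at this
  exact this

lemma hess_comp' (hφ : ContDiffAt ℝ 2 φ (u x)) (hu : SmoothFn (n := n) u) (hx : At e x) :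
    hess (fun x => φ (u x)) e (e x) =
      ((deriv φ (u x) : ℝ) : ℂ) • hess u e (e x) + ((deriv (deriv φ) (u x) : ℝ) : ℂ) • dd u u e (e x) := by
  have := cHess_comp_real (z := e x) (f := fun y => u (e.symm y)) (φ := φ)
    (by simpa only [hx.left_inv] using hφ) (sm_two hu hx)
  simp only [hx.left_inv] at this
  exact this

lemma dd_add_left (hu : SmoothFn (n := n) u) (hv : SmoothFn (n := n) v) (hx : At e x) :
    dd (fun x => u x + v x) w e (e x) = dd u w e (e x) + dd v w e (e x) := by
  ext i j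
  simp only [dd, Matrix.of_apply, Matrix.add_apply]
  rw [dz_real_add (f := fun y => u (e.symm y)) (h := fun y => v (e.symm y)) (sm_diff hu hx)
    (sm_diff hv hx)]
  ring

lemma dd_add_right (hu : SmoothFn (n := n) u) (hv : SmoothFn (n := n) v) (hx : At e x) :
    dd w (fun x => u x + v x) e (e x) = dd w u e (e x) + dd w v e (e x) := by
  ext i j
  simp only [dd, Matrix.of_apply, Matrix.add_apply]
  rw [dzb_real_add (f := fun y => u (e.symm y)) (h := fun y => v (e.symm y)) (sm_diff hu hx)
    (sm_diff hv hx)]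
  ring

lemma dd_mul_left (hu : SmoothFn (n := n) u) (hv : SmoothFn (n := n) v) (hx : At e x) :
    dd (fun x => u x * v x) w e (e x) =
      (v x : ℂ) • dd u w e (e x) + (u x : ℂ) • dd v w e (e x) := by
  ext i j
  simp only [dd, Matrix.of_apply, Matrix.add_apply, Matrix.smul_apply, smul_eq_mul]
  rw [dz_real_mul (f := fun y => u (e.symm y)) (h := fun y => v (e.symm y)) (sm_diff hu hx)
    (sm_diff hv hx)]
  simp only [hx.left_inv]
  ring

lemma dd_mul_right (hu : SmoothFn (n := n) u) (hv : SmoothFn (n := n) v) (hx : At e x) :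
    dd w (fun x => u x * v x) e (e x) =
      (v x : ℂ) • dd w u e (e x) + (u x : ℂ) • dd w v e (e x) := by
  ext i j
  simp only [dd, Matrix.of_apply, Matrix.add_apply, Matrix.smul_apply, smul_eq_mul]
  rw [dzb_real_mul (f := fun y => u (e.symm y)) (h := fun y => v (e.symm y)) (sm_diff hu hx)
    (sm_diff hv hx)]
  simp only [hx.left_inv]
  ring

lemma dd_comp_left (hφ : DifferentiableAt ℝ φ (u x)) (hu : SmoothFn (n := n) u) (hx : At e x) :
    dd (fun x => φ (u x)) w e (e x) = ((deriv φ (u x) : ℝ) : ℂ) • dd u w e (e x) := by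
  ext i j
  simp only [dd, Matrix.of_apply, Matrix.smul_apply, smul_eq_mul]
  rw [dz_real_comp (f := fun y => u (e.symm y)) (by simpa only [hx.left_inv] using hφ)
    (sm_diff hu hx)]
  simp only [hx.left_inv]
  ring

lemma dd_comp_right (hφ : DifferentiableAt ℝ φ (u x)) (hu : SmoothFn (n := n) u) (hx : At e x) :
    dd w (fun x => φ (u x)) e (e x) = ((deriv φ (u x) : ℝ) : ℂ) • dd w u e (e x) := by
  ext i j
  simp only [dd, Matrix.of_apply, Matrix.smul_apply, smul_eq_mul]
  rw [dzb_real_comp (f := fun y => u (e.symm y)) (by simpa only [hx.left_inv] using hφ)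
    (sm_diff hu hx)]
  simp only [hx.left_inv]
  ring

lemma dd_const_left (c : ℝ) (e : Chart n X) (z : Cm n) : dd (fun _ : X => c) w e z = 0 := by
  ext i j
  simp [dd, dz_const]

lemma dd_const_right (c : ℝ) (e : Chart n X) (z : Cm n) : dd w (fun _ : X => c) e z = 0 := by
  ext i j
  simp [dd, dzb_const]

/-! ### Functions on `X` -/

lemma lapX_def' (g : Chart n X → Cm n → Matrix (Fin n) (Fin n) ℂ) (u : X → ℝ) (x : X) :
    lapX g u x = ((g (chartAt (Cm n) x) (chartAt (Cm n) x x))⁻¹ *
      hess u (chartAt (Cm n) x) (chartAt (Cm n) x x)).trace.re := rfl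

lemma gradX_def' (g : Chart n X → Cm n → Matrix (Fin n) (Fin n) ℂ) (u v : X → ℝ) (x : X) :
    gradX g u v x = ((g (chartAt (Cm n) x) (chartAt (Cm n) x x))⁻¹ *
      dd u v (chartAt (Cm n) x) (chartAt (Cm n) x x)).trace.re := rfl

lemma tr_add (A B C : Matrix (Fin n) (Fin n) ℂ) :
    (A * (B + C)).trace.re = (A * B).trace.re + (A * C).trace.re := by
  rw [Matrix.mul_add, Matrix.trace_add, Complex.add_re]

lemma tr_sub (A B C : Matrix (Fin n) (Fin n) ℂ) :
    (A * (B - C)).trace.re = (A * B).trace.re - (A * C).trace.re := by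
  rw [Matrix.mul_sub, Matrix.trace_sub, Complex.sub_re]

lemma tr_smul (c : ℝ) (A B : Matrix (Fin n) (Fin n) ℂ) :
    (A * ((c : ℂ) • B)).trace.re = c * (A * B).trace.re := by
  rw [Matrix.mul_smul, Matrix.trace_smul, smul_eq_mul, Complex.re_ofReal_mul]

lemma lapX_add' (hu : SmoothFn (n := n) u) (hv : SmoothFn (n := n) v) (x : X) :
    lapX g (fun x => u x + v x) x = lapX g u x + lapX g v x := by
  rw [lapX_def', hess_add' hu hv (at_chartAt x), tr_add]; rfl

lemma lapX_sub' (hu : SmoothFn (n := n) u) (hv : SmoothFn (n := n) v) (x : X) :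
    lapX g (fun x => u x - v x) x = lapX g u x - lapX g v x := by
  rw [lapX_def', hess_sub' hu hv (at_chartAt x), tr_sub]; rfl

lemma lapX_const_mul' (c : ℝ) (hu : SmoothFn (n := n) u) (x : X) :
    lapX g (fun x => c * u x) x = c * lapX g u x := by
  rw [lapX_def', hess_const_mul' c hu (at_chartAt x), tr_smul]; rfl

lemma lapX_neg (hu : SmoothFn (n := n) u) (x : X) :
    lapX g (fun x => -u x) x = -lapX g u x := by
  have := lapX_const_mul' (g := g) (-1) hu x
  simpa using this

lemma lapX_const' (c : ℝ) (x : X) : lapX g (fun _ => c) x = 0 := by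
  rw [lapX_def', hess_const']; simp

/-- product rule -/
lemma lapX_mul (hg : ∀ e x, At e x → (g e (e x)).PosDef) (hu : SmoothFn (n := n) u)
    (hv : SmoothFn (n := n) v) (x : X) :
    lapX g (fun x => u x * v x) x =
      u x * lapX g v x + v x * lapX g u x + 2 * gradX g u v x := by
  rw [lapX_def', hess_mul hu hv (at_chartAt x), tr_add, tr_add, tr_add, tr_smul, tr_smul]
  have h1 : ((g (chartAt (Cm n) x) (chartAt (Cm n) x x))⁻¹ *
      dd v u (chartAt (Cm n) x) (chartAt (Cm n) x x)).trace.re = gradX g u v x :=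
    trace_gm_comm (hg _ _ (at_chartAt x)) _ _ _
  rw [h1, gradX_def', lapX_def', lapX_def']
  ring

/-- chain rule -/
lemma lapX_comp' (hφ : ContDiffAt ℝ 2 φ (u x)) (hu : SmoothFn (n := n) u) :
    lapX g (fun x => φ (u x)) x =
      deriv φ (u x) * lapX g u x + deriv (deriv φ) (u x) * gradX g u u x := by
  rw [lapX_def', hess_comp' hφ hu (at_chartAt x), tr_add, tr_smul, tr_smul]; rfl

lemma gradX_comm (hg : ∀ e x, At e x → (g e (e x)).PosDef) (u v : X → ℝ) (x : X) :
    gradX g u v x = gradX g v u x := trace_gm_comm (hg _ _ (at_chartAt x)) _ _ _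

lemma gradX_self_nonneg (hg : ∀ e x, At e x → (g e (e x)).PosDef) (u : X → ℝ) (x : X) :
    0 ≤ gradX g u u x := trace_gm_nonneg (hg _ _ (at_chartAt x)) _ _

lemma gradX_add_left (hu : SmoothFn (n := n) u) (hv : SmoothFn (n := n) v) (x : X) :
    gradX g (fun x => u x + v x) w x = gradX g u w x + gradX g v w x := by
  rw [gradX_def', dd_add_left hu hv (at_chartAt x), tr_add]; rfl

lemma gradX_add_right (hu : SmoothFn (n := n) u) (hv : SmoothFn (n := n) v) (x : X) :
    gradX g w (fun x => u x + v x) x = gradX g w u x + gradX g w v x := by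
  rw [gradX_def', dd_add_right hu hv (at_chartAt x), tr_add]; rfl

lemma gradX_mul_left (hu : SmoothFn (n := n) u) (hv : SmoothFn (n := n) v) (x : X) :
    gradX g (fun x => u x * v x) w x = v x * gradX g u w x + u x * gradX g v w x := by
  rw [gradX_def', dd_mul_left hu hv (at_chartAt x), tr_add, tr_smul, tr_smul]; rfl

lemma gradX_mul_right (hu : SmoothFn (n := n) u) (hv : SmoothFn (n := n) v) (x : X) :
    gradX g w (fun x => u x * v x) x = v x * gradX g w u x + u x * gradX g w v x := by
  rw [gradX_def', dd_mul_right hu hv (at_chartAt x), tr_add, tr_smul, tr_smul]; rfl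

lemma gradX_comp_left (hφ : DifferentiableAt ℝ φ (u x)) (hu : SmoothFn (n := n) u) :
    gradX g (fun x => φ (u x)) w x = deriv φ (u x) * gradX g u w x := by
  rw [gradX_def', dd_comp_left hφ hu (at_chartAt x), tr_smul]; rfl

lemma gradX_comp_right (hφ : DifferentiableAt ℝ φ (u x)) (hu : SmoothFn (n := n) u) :
    gradX g w (fun x => φ (u x)) x = deriv φ (u x) * gradX g w u x := by
  rw [gradX_def', dd_comp_right hφ hu (at_chartAt x), tr_smul]; rfl

lemma gradX_const_left (c : ℝ) (x : X) : gradX g (fun _ => c) w x = 0 := by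
  rw [gradX_def', dd_const_left]; simp

lemma gradX_const_right (c : ℝ) (x : X) : gradX g w (fun _ => c) x = 0 := by
  rw [gradX_def', dd_const_right]; simp

lemma gradX_const_mul_left (c : ℝ) (hu : SmoothFn (n := n) u) (x : X) :
    gradX g (fun x => c * u x) w x = c * gradX g u w x := by
  rw [gradX_mul_left (smoothFn_const c) hu, gradX_const_left]; ring

lemma gradX_const_mul_right (c : ℝ) (hu : SmoothFn (n := n) u) (x : X) :
    gradX g w (fun x => c * u x) x = c * gradX g w u x := by
  rw [gradX_mul_right (smoothFn_const c) hu, gradX_const_right]; ring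

lemma gradX_neg_left (hu : SmoothFn (n := n) u) (x : X) :
    gradX g (fun x => -u x) w x = -gradX g u w x := by
  have := gradX_const_mul_left (g := g) (w := w) (-1) hu x
  simpa using this

lemma gradX_neg_right (hu : SmoothFn (n := n) u) (x : X) :
    gradX g w (fun x => -u x) x = -gradX g w u x := by
  have := gradX_const_mul_right (g := g) (w := w) (-1) hu x
  simpa using this

lemma gradX_sub_left (hu : SmoothFn (n := n) u) (hv : SmoothFn (n := n) v) (x : X) :
    gradX g (fun x => u x - v x) w x = gradX g u w x - gradX g v w x := by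
  have h1 := gradX_add_left (g := g) (w := w) hu (sm_neg hv) x
  rw [gradX_neg_left hv] at h1
  simpa [sub_eq_add_neg] using h1

lemma gradX_sub_right (hu : SmoothFn (n := n) u) (hv : SmoothFn (n := n) v) (x : X) :
    gradX g w (fun x => u x - v x) x = gradX g w u x - gradX g w v x := by
  have h1 := gradX_add_right (g := g) (w := w) hu (sm_neg hv) x
  rw [gradX_neg_right hv] at h1
  simpa [sub_eq_add_neg] using h1

/-- Cauchy-Schwarz -/
lemma gradX_sq_le (hg : ∀ e x, At e x → (g e (e x)).PosDef) (hu : SmoothFn (n := n) u)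
    (hv : SmoothFn (n := n) v) (x : X) :
    gradX g u v x ^ 2 ≤ gradX g u u x * gradX g v v x := by
  have key : ∀ t : ℝ, 0 ≤ gradX g u u x + 2 * t * gradX g u v x + t ^ 2 * gradX g v v x := by
    intro t
    have hw : SmoothFn (n := n) (fun x => u x + t * v x) := sm_add hu (sm_const_mul t hv)
    have h1 := gradX_self_nonneg hg (fun x => u x + t * v x) x
    rw [gradX_add_left hu (sm_const_mul t hv), gradX_add_right hu (sm_const_mul t hv),
      gradX_add_right hu (sm_const_mul t hv), gradX_const_mul_left t hv, gradX_const_mul_left t hv,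
      gradX_const_mul_right t hv, gradX_const_mul_right t hv, gradX_comm hg v u] at h1
    nlinarith
  have ha := gradX_self_nonneg hg u x
  have hc := gradX_self_nonneg hg v x
  rcases hc.eq_or_lt with h0 | h0
  · by_contra hcon
    rw [← h0, mul_zero, not_le] at hcon
    have hne : gradX g u v x ≠ 0 := fun h => by simp [h] at hcon
    have h1 := key (-(gradX g u u x + 1) / (2 * gradX g u v x))
    rw [← h0] at h1
    have h2 : 2 * (-(gradX g u u x + 1) / (2 * gradX g u v x)) * gradX g u v x =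
        -(gradX g u u x + 1) := by field_simp
    rw [h2] at h1
    linarith
  · have h1 := key (-(gradX g u v x) / gradX g v v x)
    have h2 : gradX g u u x + 2 * (-(gradX g u v x) / gradX g v v x) * gradX g u v x +
        (-(gradX g u v x) / gradX g v v x) ^ 2 * gradX g v v x =
        gradX g u u x - gradX g u v x ^ 2 / gradX g v v x := by field_simp; ring
    rw [h2] at h1
    have h3 : gradX g u v x ^ 2 / gradX g v v x ≤ gradX g u u x := by linarith
    rwa [div_le_iff₀ h0] at h3

lemma abs_gradX_le (hg : ∀ e x, At e x → (g e (e x)).PosDef) (hu : SmoothFn (n := n) u)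
    (hv : SmoothFn (n := n) v) (x : X) :
    |gradX g u v x| ≤ Real.sqrt (gradX g u u x) * Real.sqrt (gradX g v v x) := by
  rw [← Real.sqrt_mul (gradX_self_nonneg hg u x)]
  exact Real.abs_le_sqrt (gradX_sq_le hg hu hv x)

/-! ### Maximum principle -/

lemma isLocalMax_symm (hx : At e x) (h : IsLocalMax u x) :
    IsLocalMax (fun y => u (e.symm y)) (e x) := by
  have h1 : Tendsto e.symm (𝓝 (e x)) (𝓝 x) := by
    have := e.continuousAt_symm hx.mem_target
    rwa [ContinuousAt, hx.left_inv] at this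
  have h2 : ∀ᶠ y in 𝓝 (e x), u (e.symm y) ≤ u x := h1.eventually h
  show ∀ᶠ y in 𝓝 (e x), u (e.symm y) ≤ u (e.symm (e x))
  rwa [hx.left_inv]

/-- the Laplacian is nonpositive at a local maximum -/
lemma lapX_nonpos_of_max (hg : ∀ e x, At e x → (g e (e x)).PosDef) (hu : SmoothFn (n := n) u)
    (h : IsLocalMax u x) : lapX g u x ≤ 0 := by
  have h1 := N.neg_cHess_posSemidef (sm_two hu (at_chartAt x)) (isLocalMax_symm (at_chartAt x) h)
  have h2 := (Complex.le_def.1 (C2.trace_mul_nonneg
    (hg _ _ (at_chartAt (n := n) x)).inv.posSemidef h1)).1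
  rw [Matrix.mul_neg, Matrix.trace_neg] at h2
  have h3 : (0 : ℝ) ≤ -lapX g u x := h2
  linarith

/-- the gradient vanishes at a local maximum -/
lemma gradX_zero_of_max (h : IsLocalMax u x) (v : X → ℝ) : gradX g u v x = 0 := by
  have h1 : fderiv ℝ (fun y => u ((chartAt (Cm n) x).symm y)) (chartAt (Cm n) x x) = 0 :=
    (isLocalMax_symm (at_chartAt x) h).fderiv_eq_zero
  rw [gradX_def', dd_eq_gm, gm_zero_left _ h1]
  simp

lemma sm_continuous (hu : SmoothFn (n := n) u) : Continuous u := by
  rw [continuous_iff_continuousAt]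
  intro x
  have hx := at_chartAt (n := n) x
  have h1 : ContinuousAt (fun z => u ((chartAt (Cm n) x).symm z)) (chartAt (Cm n) x x) :=
    (hu _ x hx).continuousAt
  have h2 : ContinuousAt (fun y => u ((chartAt (Cm n) x).symm (chartAt (Cm n) x y))) x :=
    ContinuousAt.comp (g := fun z => u ((chartAt (Cm n) x).symm z)) (f := chartAt (Cm n) x) h1
      ((chartAt (Cm n) x).continuousAt hx.2)
  refine h2.congr ?_
  filter_upwards [(chartAt (Cm n) x).open_source.mem_nhds hx.2] with y hy
  rw [(chartAt (Cm n) x).left_inv hy]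

lemma exists_max [CompactSpace X] (hu : SmoothFn (n := n) u) (x : X) :
    ∃ x0 : X, (∀ y, u y ≤ u x0) ∧ IsLocalMax u x0 := by
  obtain ⟨x0, -, hx0⟩ := isCompact_univ.exists_isMaxOn ⟨x, mem_univ x⟩
    (sm_continuous hu).continuousOn
  exact ⟨x0, fun y => hx0 (mem_univ y), Eventually.of_forall fun y => hx0 (mem_univ y)⟩

/-- **Maximum principle**: `u - Δu ≤ M` implies `u ≤ M`. -/
lemma le_of_sub_lap_le [CompactSpace X] (hg : ∀ e x, At e x → (g e (e x)).PosDef)
    (hu : SmoothFn (n := n) u) {M : ℝ} (h : ∀ x, u x - lapX g u x ≤ M) (x : X) : u x ≤ M := by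
  obtain ⟨x0, h1, h2⟩ := exists_max hu x
  have h3 := lapX_nonpos_of_max hg hu h2
  have h4 := h x0
  have h5 := h1 x
  linarith

/-- **Comparison**: `u - Δu ≤ v - Δv` implies `u ≤ v`. -/
lemma le_of_sub_lap_le_sub_lap [CompactSpace X] (hg : ∀ e x, At e x → (g e (e x)).PosDef)
    (hu : SmoothFn (n := n) u) (hv : SmoothFn (n := n) v)
    (h : ∀ x, u x - lapX g u x ≤ v x - lapX g v x) (x : X) : u x ≤ v x := by
  have h1 := le_of_sub_lap_le (g := g) hg (sm_sub hu hv) (M := 0) (fun x => by
    rw [lapX_sub' hu hv]; have := h x; linarith) x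
  linarith

end X

end Vale.Agent.P272.K.AMP
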