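import Vale.Agent.P272.K.AMP.GreenLocal
import Vale.Agent.P272.K.INT.Global

/-!
# Self-adjointness of the Laplacian of a Kähler metric on a compact complex manifold

`Ld g u e z = tr (g⁻¹ i∂∂̄u)`, the (complex) Laplacian, in the chart `e`.
-/

open scoped Manifold ContDiff ComplexOrder Topology
open Complex Set Filter MeasureTheory

set_option linter.all false

noncomputable section

namespace Vale.Agent.P272.K.AMP

open INT (IsDensity intX part Part)

variable {n : ℕ} {X : Type*} [TopologicalSpace X] [ChartedSpace (Cm n) X]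

/-- the density `(Δ_g u) det g` in the chart `e` -/
def Ld (g : Chart n X → Cm n → Matrix (Fin n) (Fin n) ℂ) (u : X → ℝ) (e : Chart n X) (z : Cm n) :
    ℝ := ((g e z)⁻¹ * cHess (fun y => u (e.symm y)) z).trace.re * (g e z).det.re

variable [IsManifold 𝓘(ℂ, Cm n) ω X]

lemma isDensity_Ld {g : Chart n X → Cm n → Matrix (Fin n) (Fin n) ℂ} (hg : IsHermitian g)
    {u : X → ℝ} (hu : SmoothFn (n := n) u) : IsDensity (Ld g u) where
  cont e x hx := by
    have hgi : ∀ i j, ContDiffAt ℝ ∞ (fun y => (g e y)⁻¹ i j) (e x) :=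
      fun i j => contDiffAt_inv (hg.smooth e x hx) (hg.det_ne_zero hx) i j
    have h2 := contDiffAt_trace_mul hgi (fun i j => hu.chess hx i j)
    have h4 := contDiffAt_det (hg.smooth e x hx)
    exact ((contDiffAt_re h2).mul (contDiffAt_re h4)).continuousAt
  change e e' x hx hx' := by
    unfold Ld
    have h2 := trace_inv hg.isForm hu.isForm hx hx'
    rw [h2, det_form_re hg.isForm hx hx']
    ring

lemma Ld_zero_of_eventually {g : Chart n X → Cm n → Matrix (Fin n) (Fin n) ℂ} {u : X → ℝ}
    {e : Chart n X} {x : X} (hx : At e x) (h : ∀ᶠ y in 𝓝 x, u y = 0) : Ld g u e (e x) = 0 := by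
  have h1 : (fun y => u (e.symm y)) =ᶠ[𝓝 (e x)] fun _ => 0 := by
    have h3 : Tendsto e.symm (𝓝 (e x)) (𝓝 x) := by
      have := e.continuousAt_symm (e.map_source hx.2)
      rw [ContinuousAt, e.left_inv hx.2] at this
      exact this
    exact h3.eventually h
  unfold Ld
  rw [cHess_congr h1, cHess_const]
  simp

variable [T2Space X] [CompactSpace X]

/-- `∫ v Δu = ∫ u Δv` when `v` is supported in a chart. -/
lemma green_piece {g : Chart n X → Cm n → Matrix (Fin n) (Fin n) ℂ} (hg : IsKahler g)
    {u v : X → ℝ} (hu : SmoothFn (n := n) u) (hv : SmoothFn (n := n) v) {e : Chart n X}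
    (he : e ∈ atlas (Cm n) X) (hs : tsupport v ⊆ e.source) :
    intX (fun e z => v (e.symm z) * Ld g u e z) = intX (fun e z => u (e.symm z) * Ld g v e z) := by
  have hgH : IsHermitian g := hg.toIsHermitian
  have hD1 : IsDensity (fun (e : Chart n X) z => v (e.symm z) * Ld g u e z) :=
    (isDensity_Ld hgH hu).smul (INT.SmoothFn.continuous hv)
  have hD2 : IsDensity (fun (e : Chart n X) z => u (e.symm z) * Ld g v e z) :=
    (isDensity_Ld hgH hv).smul (INT.SmoothFn.continuous hu)
  rw [INT.intX_of_support hD1 he (isClosed_tsupport v) hs (fun e' x hx hxv => by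
      rw [e'.left_inv hx.2, image_eq_zero_of_notMem_tsupport hxv, zero_mul]),
    INT.intX_of_support hD2 he (isClosed_tsupport v) hs (fun e' x hx hxv => by
      rw [Ld_zero_of_eventually hx, mul_zero]
      filter_upwards [(isClosed_tsupport v).isOpen_compl.mem_nhds hxv] with y hy
      exact image_eq_zero_of_notMem_tsupport hy)]
  set O : TopologicalSpace.Opens (Cm n) := ⟨e.target, e.open_target⟩ with hO
  have hmet : P1.Met O (g e) := ⟨fun z hz a b => hgH.smooth_target he hz a b,
    fun z hz => hgH.posDef_target he hz⟩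
  have hc : ∀ z ∈ O, ∀ i j l, dz l (fun y => g e y i j) z = dz i (fun y => g e y l j) z := by
    intro z hz a b l
    have := hg.closed e _ (At.of_target he hz) a b l
    rwa [e.right_inv hz] at this
  have hF : ∀ z ∈ O, ContDiffAt ℝ ∞ (fun z => u (e.symm z)) z := by
    intro z hz
    have := hu e _ (At.of_target he hz)
    rwa [e.right_inv hz] at this
  have key := local_green hmet hc (contDiff_cutZ he hv hs) (hasCompactSupport_cutZ hs)
    ((tsupport_cutZ hs).trans (image_tsupport_subset hs)) hF
  have e1 : ∫ z in e.target, v (e.symm z) * Ld g u e z =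
      ∫ z in (O : Set (Cm n)), cutZ e v z *
        (((g e z)⁻¹ * cHess (fun z => u (e.symm z)) z).trace.re * (g e z).det.re) := by
    refine setIntegral_congr_fun e.open_target.measurableSet fun z hz => ?_
    simp only [cutZ_of_mem hz, Ld]
  have e2 : ∫ z in e.target, u (e.symm z) * Ld g v e z =
      ∫ z in (O : Set (Cm n)), u (e.symm z) *
        (((g e z)⁻¹ * cHess (cutZ e v) z).trace.re * (g e z).det.re) := by
    refine setIntegral_congr_fun e.open_target.measurableSet fun z hz => ?_
    simp only [Ld, cHess_congr (cutZ_eventuallyEq (ρ := v) hz)]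
  rw [e1, e2, key]

/-- additivity of `Ld` over a finite sum -/
lemma Ld_sum {g : Chart n X → Cm n → Matrix (Fin n) (Fin n) ℂ} {ι : Type*} (s : Finset ι)
    {v : ι → X → ℝ} (hv : ∀ i ∈ s, SmoothFn (n := n) (v i)) {e : Chart n X} {x : X}
    (hx : At e x) :
    Ld g (fun x => ∑ i ∈ s, v i x) e (e x) = ∑ i ∈ s, Ld g (v i) e (e x) := by
  have h0 : cHess (fun y => ∑ i ∈ s, v i (e.symm y)) (e x) =
      ∑ i ∈ s, cHess (fun y => v i (e.symm y)) (e x) :=
    cHess_sum s fun i hi => (hv i hi e x hx).of_le (by exact WithTop.coe_le_coe.2 le_top)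
  unfold Ld
  rw [h0, Matrix.mul_sum, Matrix.trace_sum, Complex.re_sum, Finset.sum_mul]

/-- **Green's formula**: `∫ v Δu dv_g = ∫ u Δv dv_g` -/
theorem green {g : Chart n X → Cm n → Matrix (Fin n) (Fin n) ℂ} (hg : IsKahler g)
    {u v : X → ℝ} (hu : SmoothFn (n := n) u) (hv : SmoothFn (n := n) v) :
    intX (fun e z => v (e.symm z) * Ld g u e z) = intX (fun e z => u (e.symm z) * Ld g v e z) := by
  have hgH : IsHermitian g := hg.toIsHermitian
  set P := part n X with hP
  have hPv : ∀ i, SmoothFn (n := n) (fun x => P.ρ i x * v x) := fun i =>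
    INT.SmoothFn.mul (P.smooth i) hv
  have h1 : intX (fun e z => v (e.symm z) * Ld g u e z) =
      intX (fun e z => ∑ i, (P.ρ i (e.symm z) * v (e.symm z)) * Ld g u e z) := by
    refine INT.intX_congr fun e x hx => ?_
    rw [← Finset.sum_mul, ← Finset.sum_mul, P.sum, one_mul]
  have h2 : intX (fun e z => u (e.symm z) * Ld g v e z) =
      intX (fun e z => ∑ i, u (e.symm z) * Ld g (fun x => P.ρ i x * v x) e z) := by
    refine INT.intX_congr fun e x hx => ?_
    rw [← Finset.mul_sum, ← Ld_sum Finset.univ (fun i _ => hPv i) hx]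
    congr 2
    funext y
    rw [← Finset.sum_mul, P.sum, one_mul]
  rw [h1, h2, INT.intX_sum Finset.univ fun i _ =>
      (isDensity_Ld hgH hu).smul (INT.SmoothFn.continuous (hPv i)),
    INT.intX_sum Finset.univ fun i _ =>
      (isDensity_Ld hgH (hPv i)).smul (INT.SmoothFn.continuous hu)]
  exact Finset.sum_congr rfl fun i _ => green_piece hg hu (hPv i) (P.mem i)
    (INT.tsupport_mul_subset_left'.trans (P.supp i))

omit [IsManifold 𝓘(ℂ, Cm n) ω X] [T2Space X] [CompactSpace X] in
lemma green_smoothFn_const (c : ℝ) : SmoothFn (n := n) (fun _ : X => c) := fun _ _ _ => contDiffAt_const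

/-- `∫ Δu dv_g = 0` -/
theorem intX_Ld {g : Chart n X → Cm n → Matrix (Fin n) (Fin n) ℂ} (hg : IsKahler g)
    {u : X → ℝ} (hu : SmoothFn (n := n) u) : intX (Ld g u) = 0 := by
  have h := green hg hu (green_smoothFn_const (n := n) (X := X) 1)
  simp only [one_mul] at h
  rw [h, ← INT.intX_zero (n := n) (X := X)]
  refine INT.intX_congr fun e x hx => ?_
  unfold Ld
  rw [cHess_const]
  simp

end Vale.Agent.P272.K.AMP
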