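import Vale.Agent.P272.K.AMP.Iface
import Vale.Agent.P272.K.N.Final
import Vale.Agent.P272.K.LIN.LTFinal

/-! `u - Δ_g u = f` is solvable with `u` smooth, for every smooth `f`; `u` has the maximum
principle bounds. -/

open scoped Manifold ContDiff ComplexOrder Topology NNReal
open Complex Filter Metric Set

set_option maxSynthPendingDepth 3
set_option linter.all false

noncomputable section

namespace Vale.Agent.P272.K.AMP

open Vale.Agent.P272.K Vale.Agent.P272.K.LIN Vale.Agent.P272.K.N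

variable {n : ℕ}

/-- the linear equation `Φ(x, y, M) = tr (χ(x)⁻¹ lev M) - y - f(x)` -/
def PhiL (χ : Cm n → Matrix (Fin n) (Fin n) ℂ) (f : Cm n → ℝ) (p : Cm n × ℝ × Bil n) : ℝ :=
  ((χ p.1)⁻¹ * lev p.2.2).trace.re - p.2.1 - f p.1

theorem contDiffAt_PhiL {χ : Cm n → Matrix (Fin n) (Fin n) ℂ} {f : Cm n → ℝ}
    {p : Cm n × ℝ × Bil n} (hχ : ∀ i j, ContDiffAt ℝ ∞ (fun z => χ z i j) p.1)
    (hf : ContDiffAt ℝ ∞ f p.1) (h0 : (χ p.1).det ≠ 0) : ContDiffAt ℝ ∞ (PhiL χ f) p := by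
  have e1 : ContDiffAt ℝ ∞ (fun p : Cm n × ℝ × Bil n => ((χ p.1)⁻¹ * lev p.2.2).trace) p := by
    simp only [Matrix.trace, Matrix.diag_apply, Matrix.mul_apply]
    refine ContDiffAt.sum fun i _ => ContDiffAt.sum fun j _ => ?_
    have h2 : ContDiffAt ℝ ∞ (fun p : Cm n × ℝ × Bil n => (χ p.1)⁻¹ i j) p :=
      ContDiffAt.comp p (g := fun z => (χ z)⁻¹ i j) (contDiffAt_inv hχ h0 i j) contDiffAt_fst
    have h3 : ContDiffAt ℝ ∞ (fun p : Cm n × ℝ × Bil n => lev p.2.2 j i) p :=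
      ((contDiff_lev j i).comp (contDiff_snd.comp contDiff_snd)).contDiffAt
    exact h2.mul h3
  have e5 : ContDiffAt ℝ ∞ (fun p : Cm n × ℝ × Bil n => p.2.1) p :=
    (contDiff_fst.comp contDiff_snd).contDiffAt
  have e6 : ContDiffAt ℝ ∞ (fun p : Cm n × ℝ × Bil n => f p.1) p := hf.comp p contDiffAt_fst
  exact ((Complex.reCLM.contDiff.contDiffAt.comp p e1).sub e5).sub e6

theorem fderiv_PhiL {χ : Cm n → Matrix (Fin n) (Fin n) ℂ} {f : Cm n → ℝ}
    {p : Cm n × ℝ × Bil n} (hχ : ∀ i j, ContDiffAt ℝ ∞ (fun z => χ z i j) p.1)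
    (hf : ContDiffAt ℝ ∞ f p.1) (h0 : (χ p.1).det ≠ 0) (B : Bil n) :
    fderiv ℝ (PhiL χ f) p (0, 0, B) = ((χ p.1)⁻¹ * lev B).trace.re := by
  have hd := (contDiffAt_PhiL hχ hf h0).differentiableAt (by simp)
  have hl : HasDerivAt (fun t : ℝ => p + t • ((0, 0, B) : Cm n × ℝ × Bil n)) (0, 0, B) 0 := by
    simpa using ((hasDerivAt_id (0:ℝ)).smul_const ((0, 0, B) : Cm n × ℝ × Bil n)).const_add p
  have h2 : HasFDerivAt (PhiL χ f) (fderiv ℝ (PhiL χ f) p)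
      (p + (0:ℝ) • ((0, 0, B) : Cm n × ℝ × Bil n)) := by simpa using hd.hasFDerivAt
  have h3 := h2.comp_hasDerivAt (0:ℝ) hl
  have h4 : HasDerivAt (fun t : ℝ => PhiL χ f p + t * ((χ p.1)⁻¹ * lev B).trace.re)
      ((χ p.1)⁻¹ * lev B).trace.re 0 := by
    simpa using ((hasDerivAt_id (0:ℝ)).mul_const (((χ p.1)⁻¹ * lev B).trace.re)).const_add
      (PhiL χ f p)
  refine h3.unique (h4.congr_of_eventuallyEq (Eventually.of_forall fun t => ?_))
  simp only [Function.comp, PhiL, Prod.fst_add, Prod.snd_add, Prod.smul_fst, Prod.smul_snd,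
    smul_zero, add_zero, lev_add, lev_smul, Matrix.mul_add, Matrix.mul_smul, Matrix.trace_add,
    Matrix.trace_smul, Complex.add_re, smul_eq_mul, Complex.re_ofReal_mul]
  ring

/-- local regularity of solutions of `Δ w - w = f` -/
theorem contDiffAt_of_linear {α : ℝ} (hReg : RegStatement (Cm n) α)
    {U : Set (Cm n)} (hU : IsOpen U) {χ : Cm n → Matrix (Fin n) (Fin n) ℂ} {f w : Cm n → ℝ}
    (hχ : ∀ z ∈ U, ∀ i j, ContDiffAt ℝ ∞ (fun z => χ z i j) z) (hχp : ∀ z ∈ U, (χ z).PosDef)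
    (hf : ∀ z ∈ U, ContDiffAt ℝ ∞ f z) (hw : ∀ z ∈ U, ContDiffAt ℝ 2 w z)
    (hH : ∀ x ∈ U, ∃ r > 0, ∃ C : ℝ, ∀ y ∈ ball x r, ∀ z ∈ ball x r,
      ‖fderiv ℝ (fderiv ℝ w) y - fderiv ℝ (fderiv ℝ w) z‖ ≤ C * ‖y - z‖ ^ α)
    (he : ∀ z ∈ U, ((χ z)⁻¹ * cHess w z).trace.re - w z = f z) :
    ∀ z ∈ U, ContDiffAt ℝ ∞ w z := by
  have hlev : ∀ z ∈ U, cHess w z = lev (fderiv ℝ (fderiv ℝ w) z) := fun z hz =>
    cHess_eq_lev (diffble2 (hw z hz))
  refine hReg U hU w hw hH (U ×ˢ Set.univ) (hU.prod isOpen_univ) (PhiL χ f) (fun p hp => ?_)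
    (fun x hx => ⟨hx, mem_univ _⟩) (fun x hx => ?_) fun x hx l hl => ?_
  · exact contDiffAt_PhiL (hχ p.1 hp.1) (hf p.1 hp.1) (hχp p.1 hp.1).det_pos.ne'
  · show ((χ x)⁻¹ * lev (fderiv ℝ (fderiv ℝ w) x)).trace.re - w x - f x = 0
    rw [← hlev x hx]
    linarith [he x hx]
  · rw [fderiv_PhiL (hχ x hx) (hf x hx) (hχp x hx).det_pos.ne']
    exact trace_inv_lev_pos (hχp x hx) hl

section
variable {X : Type} [TopologicalSpace X] [ChartedSpace (Cm n) X]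
  [IsManifold (modelWithCornersSelf ℂ (Cm n)) ω X]

theorem smoothFn_of_linear {α : ℝ} (hReg : RegStatement (Cm n) α)
    {χ : Chart n X → Cm n → Matrix (Fin n) (Fin n) ℂ} (hχ : IsHermitian χ) {F u : X → ℝ}
    (hF : SmoothFn (n := n) F) (hu : C2Fn (n := n) u)
    (hH : ∀ x : X, ∃ e : Chart n X, At e x ∧ ∃ r > 0, ∃ C : ℝ, ∀ y ∈ ball (e x) r, ∀ z ∈ ball (e x) r,
      ‖fderiv ℝ (fderiv ℝ fun z => u (e.symm z)) y - fderiv ℝ (fderiv ℝ fun z => u (e.symm z)) z‖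
        ≤ C * ‖y - z‖ ^ α)
    (he : ∀ e x, At e x →
      ((χ e (e x))⁻¹ * cHess (fun y => u (e.symm y)) (e x)).trace.re - u x = F x) :
    SmoothFn (n := n) u := by
  intro e' x hx'
  obtain ⟨e, hx, r, hr, C, hC⟩ := hH x
  refine contDiffAt_of_chart hx hx' (by exact_mod_cast le_top) ?_
  have hU : IsOpen (ball (e x) r ∩ e.target) := isOpen_ball.inter e.open_target
  have hat : ∀ z ∈ ball (e x) r ∩ e.target, At e (e.symm z) ∧ e (e.symm z) = z := fun z hz =>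
    ⟨At.of_target hx.1 hz.2, e.right_inv hz.2⟩
  refine contDiffAt_of_linear hReg hU (χ := χ e) (f := fun z => F (e.symm z))
    (fun z hz i j => ?_) (fun z hz => ?_) (fun z hz => ?_) (fun z hz => ?_) (fun z hz => ?_)
    (fun z hz => ?_) (e x) ⟨mem_ball_self hr, hx.mem_target⟩
  · have := hχ.smooth e _ (hat z hz).1 i j
    rwa [(hat z hz).2] at this
  · have := hχ.posDef e _ (hat z hz).1
    rwa [(hat z hz).2] at this
  · have := hF e _ (hat z hz).1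
    rwa [(hat z hz).2] at this
  · have := hu e _ (hat z hz).1
    rwa [(hat z hz).2] at this
  · obtain ⟨δ, hδ, hsub⟩ := Metric.isOpen_iff.1 (isOpen_ball (x := e x) (ε := r)) z hz.1
    exact ⟨δ, hδ, C, fun y hy z' hz' => hC y (hsub hy) z' (hsub hz')⟩
  · have := he e _ (hat z hz).1
    rw [(hat z hz).2] at this
    exact this

/-- solvability in `C^{2,α}`, abstract form -/
theorem lin_surj {𝒞 : Cov (Cm n) X} {α : ℝ} {V : Type} [NormedAddCommGroup V] [NormedSpace ℝ V]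
    (D : C2Data 𝒞 α V) [CompactSpace X] [T2Space X]
    {g : Chart n X → Cm n → Matrix (Fin n) (Fin n) ℂ} (hg : IsHermitian g) (h0 : 0 < α)
    (h1 : α ≤ 1) (hLT : LTStatement D) (f : Hol (𝒞.w α) ℝ) :
    ∃ v : V, ∀ e x, At e x →
      ((g e (e x))⁻¹ * cHess (fun y => (D.I v : X → ℝ) (e.symm y)) (e x)).trace.re - D.I v x =
        f x := by
  have hD0 : ((D.I 0 : Hol (𝒞.w α) ℝ) : X → ℝ) = fun _ => 0 := by rw [map_zero]; rfl
  have hp : ∀ e x, At e x → (addH g (D.I 0 : X → ℝ) e (e x)).PosDef := by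
    intro e x h
    rw [hD0, addH_zero]
    exact hg.posDef e x h
  have hG : GX D hg h0 h1 (0 : Hol (𝒞.w α) ℝ) ((0 : ℝ), 0) = 0 := by
    refine (GX_eq_zero_iff D hg h0 h1 hp).2 fun e x h => ?_
    rw [hD0, addH_zero]
    simp
  obtain ⟨v, hv⟩ := fderiv_surj D hg h0 h1 hLT hp hG f
  refine ⟨v, fun e x h => ?_⟩
  have h2 := fderiv_GX D hg h0 h1 hp hG v h
  rw [hv, hD0, addH_zero] at h2
  rw [h2]
  simp

/-- **The linear equation** `u - Δ_g u = f` has a smooth solution for every smooth `f`. -/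
theorem exists_solve [CompactSpace X] [T2Space X]
    {g : Chart n X → Cm n → Matrix (Fin n) (Fin n) ℂ} (hg : IsHermitian g) {f : X → ℝ}
    (hf : SmoothFn (n := n) f) :
    ∃ u : X → ℝ, SmoothFn (n := n) u ∧ ∀ x, u x - lapX g u x = f x := by
  obtain ⟨𝒞⟩ := Cov.nonempty (Cm n) X
  have h0 : (0 : ℝ) < 1 / 3 := by norm_num
  have h1 : (1 / 3 : ℝ) ≤ 1 := by norm_num
  have hLT : LTStatement (c2Data 𝒞 (1 / 3)) := ltStatement (ltx (by norm_num) (by norm_num)) 𝒞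
  generalize c2Data 𝒞 (1 / 3) = D at hLT
  obtain ⟨v, hv⟩ := lin_surj D hg h0 h1 hLT
    (-𝒞.ofCk h0 h1 f ((smoothFn_iff.1 hf).of_le (by simp)))
  have key : ∀ e x, At e x →
      ((g e (e x))⁻¹ * cHess (fun y => (D.I v : X → ℝ) (e.symm y)) (e x)).trace.re - D.I v x =
        -f x := hv
  have hsm : SmoothFn (n := n) (D.I v : X → ℝ) :=
    smoothFn_of_linear (R.reg (Cm n) (α := 1/3) (by norm_num) (by norm_num)) hg (sm_neg hf)
      (D.c2Fn v) (local_holder D h0 v) key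
  refine ⟨D.I v, hsm, fun x => ?_⟩
  have h2 := key _ x (at_chartAt (n := n) x)
  have h3 : lapX g (D.I v : X → ℝ) x = ((g (chartAt (Cm n) x) (chartAt (Cm n) x x))⁻¹ *
    cHess (fun y => (D.I v : X → ℝ) ((chartAt (Cm n) x).symm y)) (chartAt (Cm n) x x)).trace.re :=
    rfl
  rw [h3]
  linarith

end

end Vale.Agent.P272.K.AMP
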