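import Vale.Agent.P272.K.Iface
import Vale.Agent.P272.K.Inv.Consts
import Vale.Agent.P272.K.INT.Global

/-! Common language of the AMP project: Laplacian and gradient pairing of a Hermitian metric. -/

open scoped Manifold ContDiff ComplexOrder Topology
open Complex Filter Set

set_option linter.all false

noncomputable section

namespace Vale.Agent.P272.K.AMP

open Vale.Agent.P272.K

variable {n : ℕ} {X : Type*} [TopologicalSpace X]

/-- the complex Hessian `(u_{i j̄})` of a function on `X` in the chart `e` -/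
def hess (u : X → ℝ) (e : Chart n X) (z : Cm n) : Matrix (Fin n) (Fin n) ℂ :=
  cHess (fun y => u (e.symm y)) z

/-- the `(1,1)`-form `∂u ⊗ ∂̄v`, i.e. the matrix `(u_i v_{j̄})`, in the chart `e` -/
def dd (u v : X → ℝ) (e : Chart n X) (z : Cm n) : Matrix (Fin n) (Fin n) ℂ :=
  Matrix.of fun i j => dz i (fun y => ((u (e.symm y) : ℝ) : ℂ)) z *
    dzb j (fun y => ((v (e.symm y) : ℝ) : ℂ)) z

/-- real part of `tr_g b = Σ g^{i j̄} b_{i j̄}` -/
def trE (g b : Chart n X → Cm n → Matrix (Fin n) (Fin n) ℂ) (e : Chart n X) (z : Cm n) : ℝ :=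
  ((g e z)⁻¹ * b e z).trace.re

/-- `Δ_g u = g^{i j̄} u_{i j̄}` in the chart `e` -/
def lapE (g : Chart n X → Cm n → Matrix (Fin n) (Fin n) ℂ) (u : X → ℝ) (e : Chart n X)
    (z : Cm n) : ℝ := ((g e z)⁻¹ * hess u e z).trace.re

/-- `Re <∂u, ∂v>_g = Re g^{i j̄} u_i v_{j̄}` in the chart `e` -/
def gradE (g : Chart n X → Cm n → Matrix (Fin n) (Fin n) ℂ) (u v : X → ℝ) (e : Chart n X)
    (z : Cm n) : ℝ := ((g e z)⁻¹ * dd u v e z).trace.re

variable [ChartedSpace (Cm n) X]

/-- value at a point of `X` of a quantity given in charts -/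
def atX (F : Chart n X → Cm n → ℝ) (x : X) : ℝ := F (chartAt (Cm n) x) (chartAt (Cm n) x x)

/-- the real part of `tr_g b` as a function on `X` -/
def trX (g b : Chart n X → Cm n → Matrix (Fin n) (Fin n) ℂ) (x : X) : ℝ := atX (trE g b) x

/-- the Laplacian `Δ_g u` as a function on `X` -/
def lapX (g : Chart n X → Cm n → Matrix (Fin n) (Fin n) ℂ) (u : X → ℝ) (x : X) : ℝ :=
  atX (lapE g u) x

/-- `Re <∂u, ∂v>_g` as a function on `X` -/
def gradX (g : Chart n X → Cm n → Matrix (Fin n) (Fin n) ℂ) (u v : X → ℝ) (x : X) : ℝ :=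
  atX (gradE g u v) x

lemma at_chartAt (x : X) : At (chartAt (Cm n) x : Chart n X) x :=
  ⟨chart_mem_atlas (Cm n) x, mem_chart_source (Cm n) x⟩

section smoothFn

lemma smoothFn_const (c : ℝ) : SmoothFn (n := n) (fun _ : X => c) := fun _ _ _ => contDiffAt_const

variable {u v : X → ℝ}

lemma sm_add (hu : SmoothFn (n := n) u) (hv : SmoothFn (n := n) v) :
    SmoothFn (n := n) (fun x => u x + v x) := fun e x hx => (hu e x hx).add (hv e x hx)

lemma sm_sub (hu : SmoothFn (n := n) u) (hv : SmoothFn (n := n) v) :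
    SmoothFn (n := n) (fun x => u x - v x) := fun e x hx => (hu e x hx).sub (hv e x hx)

lemma sm_neg (hu : SmoothFn (n := n) u) : SmoothFn (n := n) (fun x => -u x) :=
  fun e x hx => (hu e x hx).neg

lemma sm_mul (hu : SmoothFn (n := n) u) (hv : SmoothFn (n := n) v) :
    SmoothFn (n := n) (fun x => u x * v x) := fun e x hx => (hu e x hx).mul (hv e x hx)

lemma sm_const_mul (c : ℝ) (hu : SmoothFn (n := n) u) : SmoothFn (n := n) (fun x => c * u x) :=
  fun e x hx => contDiffAt_const.mul (hu e x hx)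

lemma sm_div (hu : SmoothFn (n := n) u) (hv : SmoothFn (n := n) v) (h : ∀ x, v x ≠ 0) :
    SmoothFn (n := n) (fun x => u x / v x) := fun e x hx => (hu e x hx).div (hv e x hx) (h _)

/-- composition with a real function which is smooth at the values -/
lemma sm_comp {φ : ℝ → ℝ} (hφ : ∀ x, ContDiffAt ℝ ∞ φ (u x)) (hu : SmoothFn (n := n) u) :
    SmoothFn (n := n) (fun x => φ (u x)) := fun e x hx => by
  have h : ContDiffAt ℝ ∞ φ (u (e.symm (e x))) := hφ _
  exact h.comp (e x) (hu e x hx)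

lemma sm_rpow (hu : SmoothFn (n := n) u) (h : ∀ x, 0 < u x) (p : ℝ) :
    SmoothFn (n := n) (fun x => u x ^ p) :=
  sm_comp (φ := fun t => t ^ p) (fun x => Real.contDiffAt_rpow_const_of_ne (h x).ne') hu

lemma sm_log (hu : SmoothFn (n := n) u) (h : ∀ x, 0 < u x) :
    SmoothFn (n := n) (fun x => Real.log (u x)) :=
  sm_comp (φ := Real.log) (fun x => Real.contDiffAt_log.2 (h x).ne') hu

lemma sm_exp (hu : SmoothFn (n := n) u) : SmoothFn (n := n) (fun x => Real.exp (u x)) :=
  sm_comp (φ := Real.exp) (fun x => Real.contDiff_exp.contDiffAt) hu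

end smoothFn

/-- smoothness of a function on `X` from its expression in the charts -/
lemma smoothFn_atX {F : Chart n X → Cm n → ℝ} (hs : ∀ e x, At e x → ContDiffAt ℝ ∞ (F e) (e x))
    (hc : ∀ e e' x, At e x → At e' x → F e (e x) = F e' (e' x)) :
    SmoothFn (n := n) (atX F) := by
  intro e x hx
  refine (hs e x hx).congr_of_eventuallyEq ?_
  filter_upwards [hx.nhds_target] with z hz
  have h1 := At.of_target hx.1 hz
  have := hc _ _ _ (at_chartAt (n := n) (e.symm z)) h1
  rw [e.right_inv hz] at this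
  exact this

section forms

variable [IsManifold 𝓘(ℂ, Cm n) ω X]

variable {g b c : Chart n X → Cm n → Matrix (Fin n) (Fin n) ℂ} {u v : X → ℝ} {e e' : Chart n X}
  {x : X}

lemma ofReal_symm_contDiffAt (hu : SmoothFn (n := n) u) (hx : At e x) :
    ContDiffAt ℝ ∞ (fun y => ((u (e.symm y) : ℝ) : ℂ)) (e x) := ofReal_contDiffAt (hu e x hx)

lemma isForm_hess (hu : SmoothFn (n := n) u) : IsForm (hess (n := n) u) :=
  isForm_cHess fun e x h => (hu e x h).of_le (by norm_cast)

/-- `∂u ⊗ ∂̄v` is a form -/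
lemma isForm_dd (hu : SmoothFn (n := n) u) (hv : SmoothFn (n := n) v) :
    IsForm (dd (n := n) u v) := by
  intro e e' x h h'
  have key : ∀ {w : X → ℝ}, SmoothFn (n := n) w →
      (fun y => ((w (e.symm y) : ℝ) : ℂ)) =ᶠ[𝓝 (e x)]
        fun y => (fun y => ((w (e'.symm y) : ℝ) : ℂ)) (e' (e.symm y)) := by
    intro w hw
    filter_upwards [h.nhds_at h'] with z hz
    show ((w (e.symm z) : ℝ) : ℂ) = ((w (e'.symm (e' (e.symm z))) : ℝ) : ℂ)
    rw [hz.2.2.left_inv]
  have h2 : e' (e.symm (e x)) = e' x := by rw [h.left_inv]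
  have hd : ∀ {w : X → ℝ}, SmoothFn (n := n) w →
      DifferentiableAt ℝ (fun y => ((w (e'.symm y) : ℝ) : ℂ)) (e' (e.symm (e x))) := by
    intro w hw
    rw [h2]
    exact (ofReal_symm_contDiffAt hw h').differentiableAt (by simp)
  have hτ := transition_differentiableAt h h'
  ext i j
  simp only [dd, Matrix.of_apply]
  rw [dz_congr (key hu), dzb_congr (key hv), dz_comp_holo (hd hu) hτ, dzb_comp_holo (hd hv) hτ]
  rw [h2]
  simp only [Matrix.mul_apply, Matrix.transpose_apply, Matrix.map_apply, Matrix.of_apply,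
    Finset.sum_mul, Finset.mul_sum, jacM_eq]
  refine Finset.sum_congr rfl fun p _ => Finset.sum_congr rfl fun q _ => ?_
  simp only [cj]
  ring

lemma contDiffAt_hess (hu : SmoothFn (n := n) u) (hx : At e x) (i j : Fin n) :
    ContDiffAt ℝ ∞ (fun y => hess u e y i j) (e x) := contDiffAt_cHess (hu e x hx) (le_of_eq rfl) i j

lemma contDiffAt_dd (hu : SmoothFn (n := n) u) (hv : SmoothFn (n := n) v) (hx : At e x)
    (i j : Fin n) : ContDiffAt ℝ ∞ (fun y => dd u v e y i j) (e x) := by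
  simp only [dd, Matrix.of_apply]
  exact (contDiffAt_dz (m := ∞) (ofReal_symm_contDiffAt hu hx) (le_of_eq rfl)).mul
    (contDiffAt_dzb (m := ∞) (ofReal_symm_contDiffAt hv hx) (le_of_eq rfl))

lemma trE_eq (hg : IsHermitian g) (hb : IsForm b) (h : At e x) (h' : At e' x) :
    trE g b e (e x) = trE g b e' (e' x) := by
  unfold trE; rw [trace_inv hg.isForm hb h h']

lemma lapE_eq (hg : IsHermitian g) (hu : SmoothFn (n := n) u) (h : At e x) (h' : At e' x) :
    lapE g u e (e x) = lapE g u e' (e' x) := trE_eq hg (isForm_hess hu) h h'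

lemma gradE_eq (hg : IsHermitian g) (hu : SmoothFn (n := n) u) (hv : SmoothFn (n := n) v)
    (h : At e x) (h' : At e' x) : gradE g u v e (e x) = gradE g u v e' (e' x) :=
  trE_eq hg (isForm_dd hu hv) h h'

lemma trX_eq (hg : IsHermitian g) (hb : IsForm b) (h : At e x) : trX g b x = trE g b e (e x) :=
  trE_eq hg hb (at_chartAt x) h

lemma lapX_eq (hg : IsHermitian g) (hu : SmoothFn (n := n) u) (h : At e x) :
    lapX g u x = lapE g u e (e x) := lapE_eq hg hu (at_chartAt x) h

lemma gradX_eq (hg : IsHermitian g) (hu : SmoothFn (n := n) u) (hv : SmoothFn (n := n) v)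
    (h : At e x) : gradX g u v x = gradE g u v e (e x) := gradE_eq hg hu hv (at_chartAt x) h

lemma contDiffAt_trE (hg : IsHermitian g) (hb : ∀ i j, ContDiffAt ℝ ∞ (fun y => b e y i j) (e x))
    (hx : At e x) : ContDiffAt ℝ ∞ (trE g b e) (e x) := by
  have hgi : ∀ i j, ContDiffAt ℝ ∞ (fun y => (g e y)⁻¹ i j) (e x) :=
    fun i j => contDiffAt_inv (hg.smooth e x hx) (hg.posDef e x hx).det_pos.ne' i j
  have h1 : ContDiffAt ℝ ∞ (fun y => ((g e y)⁻¹ * b e y).trace) (e x) := by
    simp only [Matrix.trace, Matrix.diag_apply, Matrix.mul_apply]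
    exact ContDiffAt.sum fun i _ => ContDiffAt.sum fun j _ => (hgi i j).mul (hb j i)
  exact (Complex.reCLM.contDiff.contDiffAt).comp (e x) h1

lemma smoothFn_trX (hg : IsHermitian g) (hb : IsForm b)
    (hs : ∀ e x, At e x → ∀ i j, ContDiffAt ℝ ∞ (fun y => b e y i j) (e x)) :
    SmoothFn (n := n) (trX g b) :=
  smoothFn_atX (fun e x hx => contDiffAt_trE hg (hs e x hx) hx)
    fun e e' x h h' => trE_eq hg hb h h'

lemma smoothFn_lapX (hg : IsHermitian g) (hu : SmoothFn (n := n) u) :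
    SmoothFn (n := n) (lapX g u) :=
  smoothFn_trX hg (isForm_hess hu) fun e x hx => contDiffAt_hess hu hx

lemma smoothFn_gradX (hg : IsHermitian g) (hu : SmoothFn (n := n) u)
    (hv : SmoothFn (n := n) v) : SmoothFn (n := n) (gradX g u v) :=
  smoothFn_trX hg (isForm_dd hu hv) fun e x hx => contDiffAt_dd hu hv hx

end forms

end Vale.Agent.P272.K.AMP
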