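import Vale.Agent.P272.K.AMP.Green
import Vale.Agent.P272.K.AMP.Iface

/-!
# Green's formulas for `lapX` and `gradX`

`IX g f = ∫_X f dv_g`.
-/

open scoped Manifold ContDiff ComplexOrder Topology
open Complex Set Filter MeasureTheory

set_option linter.all false

noncomputable section

namespace Vale.Agent.P272.K.AMP

open INT (IsDensity intX part Part)

variable {n : ℕ} {X : Type*} [TopologicalSpace X] [ChartedSpace (Cm n) X]
  {g : Chart n X → Cm n → Matrix (Fin n) (Fin n) ℂ} {u v f f' : X → ℝ}

lemma green_tr_smul (c : ℝ) (A B : Matrix (Fin n) (Fin n) ℂ) :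
    (A * ((c : ℂ) • B)).trace.re = c * (A * B).trace.re := by
  rw [Matrix.mul_smul, Matrix.trace_smul, smul_eq_mul, Complex.re_ofReal_mul]

lemma green_lapX_const (c : ℝ) (x : X) : lapX g (fun _ => c) x = 0 := by
  unfold lapX atX lapE hess
  rw [cHess_const]
  simp

/-! ### the product rule -/

lemma hess_mul_green (hu : SmoothFn (n := n) u) (hv : SmoothFn (n := n) v) {e : Chart n X} {x : X}
    (hx : At e x) : hess (fun y => u y * v y) e (e x) =
      ((u x : ℝ) : ℂ) • hess v e (e x) + ((v x : ℝ) : ℂ) • hess u e (e x)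
        + dd u v e (e x) + dd v u e (e x) := by
  set U : Cm n → ℂ := fun y => ((u (e.symm y) : ℝ) : ℂ) with hU
  set V : Cm n → ℂ := fun y => ((v (e.symm y) : ℝ) : ℂ) with hV
  have hUs : ContDiffAt ℝ ∞ U (e x) := ofReal_contDiffAt (hu e x hx)
  have hVs : ContDiffAt ℝ ∞ V (e x) := ofReal_contDiffAt (hv e x hx)
  have hUd := hUs.differentiableAt (by simp)
  have hVd := hVs.differentiableAt (by simp)
  have hUe : ∀ᶠ y in 𝓝 (e x), DifferentiableAt ℝ U y :=
    ((hUs.of_le (m := 1) (by norm_cast)).eventually (by simp)).mono fun y hy =>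
      hy.differentiableAt (by simp)
  have hVe : ∀ᶠ y in 𝓝 (e x), DifferentiableAt ℝ V y :=
    ((hVs.of_le (m := 1) (by norm_cast)).eventually (by simp)).mono fun y hy =>
      hy.differentiableAt (by simp)
  ext i j
  simp only [Matrix.add_apply, Matrix.smul_apply, smul_eq_mul, dd, Matrix.of_apply, hess,
    cHess_apply]
  have h1 : (fun y => (((u (e.symm y) * v (e.symm y) : ℝ)) : ℂ)) = fun y => U y * V y := by
    funext y; simp [hU, hV]
  have h2 : dzb j (fun y => U y * V y) =ᶠ[𝓝 (e x)] fun y => dzb j U y * V y + U y * dzb j V y := by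
    filter_upwards [hUe, hVe] with y hy hy'
    exact INT.dzb_mul hy hy'
  have d1 : DifferentiableAt ℝ (dzb j U) (e x) := (INT.smooth_dzb hUs).differentiableAt (by simp)
  have d2 : DifferentiableAt ℝ (dzb j V) (e x) := (INT.smooth_dzb hVs).differentiableAt (by simp)
  have e0 : dz i (fun y => dzb j U y * V y + U y * dzb j V y) (e x) =
      (dz i (dzb j U) (e x) * V (e x) + dzb j U (e x) * dz i V (e x)) +
        (dz i U (e x) * dzb j V (e x) + U (e x) * dz i (dzb j V) (e x)) := by
    have a1 := INT.dz_add (i := i) (F := fun y => dzb j U y * V y)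
      (G := fun y => U y * dzb j V y) (d1.mul hVd) (hUd.mul d2)
    have a2 := INT.dz_mul (i := i) d1 hVd
    have a3 := INT.dz_mul (i := i) hUd d2
    rw [a1, a2, a3]
  rw [h1, dz_congr h2, e0]
  have e1 : U (e x) = ((u x : ℝ) : ℂ) := by simp only [hU]; rw [e.left_inv hx.2]
  have e2 : V (e x) = ((v x : ℝ) : ℂ) := by simp only [hV]; rw [e.left_inv hx.2]
  rw [e1, e2]
  ring

lemma dd_conjTranspose_green {e : Chart n X} {z : Cm n} : (dd u v e z).conjTranspose = dd v u e z := by
  ext i j
  simp only [Matrix.conjTranspose_apply, dd, Matrix.of_apply, star_mul', Complex.star_def]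
  rw [← INT.dzb_conj, ← INT.dz_conj]
  simp only [Complex.conj_ofReal]
  ring

lemma trace_re_conjTranspose {A B : Matrix (Fin n) (Fin n) ℂ} (hA : A.IsHermitian) :
    (A * B.conjTranspose).trace.re = (A * B).trace.re := by
  have h : (A * B.conjTranspose).trace = star (B * A).trace := by
    rw [← Matrix.trace_conjTranspose, Matrix.conjTranspose_mul, hA.eq]
  rw [h, Matrix.trace_mul_comm]
  simp

lemma gradX_comm_green (hg : IsHermitian g) (x : X) : gradX g u v x = gradX g v u x := by
  unfold gradX atX gradE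
  rw [← dd_conjTranspose_green (u := v) (v := u),
    trace_re_conjTranspose (hg.posDef _ x (at_chartAt x)).inv.isHermitian]

/-- product rule for the Laplacian -/
theorem lapX_mul_green (hg : IsHermitian g) (hu : SmoothFn (n := n) u) (hv : SmoothFn (n := n) v)
    (x : X) : lapX g (fun y => u y * v y) x =
      u x * lapX g v x + v x * lapX g u x + 2 * gradX g u v x := by
  have h1 := gradX_comm_green (u := u) (v := v) hg x
  have h2 : lapX g (fun y => u y * v y) x =
      u x * lapX g v x + v x * lapX g u x + gradX g u v x + gradX g v u x := by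
    unfold lapX gradX atX lapE gradE
    rw [hess_mul_green hu hv (at_chartAt x)]
    simp only [Matrix.mul_add, Matrix.trace_add, Complex.add_re, green_tr_smul]
  rw [h2, ← h1]; ring

/-! ### integrals of functions -/

section
variable [IsManifold 𝓘(ℂ, Cm n) ω X] [T2Space X] [CompactSpace X]

/-- `∫_X f dv_g` -/
def IX (g : Chart n X → Cm n → Matrix (Fin n) (Fin n) ℂ) (f : X → ℝ) : ℝ :=
  intX (fun (e : Chart n X) z => f (e.symm z) * (g e z).det.re)

omit [IsManifold 𝓘(ℂ, Cm n) ω X] in
lemma isDensity_IX [IsManifold 𝓘(ℂ, Cm n) ω X] (hg : IsHermitian g) (hf : Continuous f) :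
    IsDensity (fun (e : Chart n X) z => f (e.symm z) * (g e z).det.re) :=
  (INT.isDensity_det hg.change hg.smooth).smul hf

lemma IX_congr (h : ∀ x, f x = f' x) : IX g f = IX g f' := by
  have : f = f' := funext h
  rw [this]

lemma IX_add (hg : IsHermitian g) (hf : Continuous f) (hf' : Continuous f') :
    IX g (fun x => f x + f' x) = IX g f + IX g f' := by
  unfold IX
  rw [← INT.intX_add (isDensity_IX hg hf) (isDensity_IX hg hf')]
  congr 1; funext e z; ring

lemma IX_sub (hg : IsHermitian g) (hf : Continuous f) (hf' : Continuous f') :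
    IX g (fun x => f x - f' x) = IX g f - IX g f' := by
  unfold IX
  rw [← INT.intX_sub (isDensity_IX hg hf) (isDensity_IX hg hf')]
  congr 1; funext e z; ring

lemma IX_const_mul (c : ℝ) : IX g (fun x => c * f x) = c * IX g f := by
  unfold IX
  rw [← INT.intX_const_mul]
  congr 1; funext e z; ring

lemma IX_neg : IX g (fun x => -f x) = -IX g f := by
  have := IX_const_mul (g := g) (f := f) (-1)
  simpa using this

lemma IX_nonneg (hg : IsHermitian g) (h : ∀ x, 0 ≤ f x) : 0 ≤ IX g f :=
  INT.intX_nonneg fun e x hx => mul_nonneg (h _)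
    (Complex.lt_def.1 (hg.posDef e x hx).det_pos).1.le

lemma IX_mono (hg : IsHermitian g) (hf : Continuous f) (hf' : Continuous f')
    (h : ∀ x, f x ≤ f' x) : IX g f ≤ IX g f' :=
  INT.intX_mono (isDensity_IX hg hf) (isDensity_IX hg hf') fun e x hx =>
    mul_le_mul_of_nonneg_right (h _) (Complex.lt_def.1 (hg.posDef e x hx).det_pos).1.le

lemma IX_of_chart (hg : IsHermitian g) {F : Chart n X → Cm n → ℝ}
    (h : ∀ e x, At e x → F e (e x) = f x) :
    intX (fun e z => F e z * (g e z).det.re) = IX g f := by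
  refine INT.intX_congr fun e x hx => ?_
  rw [h e x hx, e.left_inv hx.2]

lemma IX_Ld (hg : IsHermitian g) (hu : SmoothFn (n := n) u) :
    intX (fun e z => v (e.symm z) * Ld g u e z) = IX g (fun x => v x * lapX g u x) := by
  refine INT.intX_congr fun e x hx => ?_
  have h := lapX_eq hg hu hx
  unfold lapE hess at h
  show _ * (_ * _) = _ * lapX g u (e.symm (e x)) * _
  rw [e.left_inv hx.2, h]
  ring

/-- **Green's formula**: `∫ v Δu dv_g = ∫ u Δv dv_g` -/
theorem IX_green (hg : IsKahler g) (hu : SmoothFn (n := n) u) (hv : SmoothFn (n := n) v) :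
    IX g (fun x => v x * lapX g u x) = IX g (fun x => u x * lapX g v x) := by
  rw [← IX_Ld hg.toIsHermitian hu, ← IX_Ld hg.toIsHermitian hv, green hg hu hv]

/-- `∫ Δu dv_g = 0` -/
theorem IX_lapX (hg : IsKahler g) (hu : SmoothFn (n := n) u) : IX g (lapX g u) = 0 := by
  have h := IX_green hg hu (smoothFn_const (n := n) (X := X) 1)
  simp only [one_mul, green_lapX_const, mul_zero] at h
  rw [h]
  unfold IX
  simp [INT.intX_zero]

/-- **Green's formula**: `∫ u Δv dv_g = -∫ <∂u, ∂v> dv_g` -/
theorem IX_green_grad (hg : IsKahler g) (hu : SmoothFn (n := n) u) (hv : SmoothFn (n := n) v) :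
    IX g (fun x => u x * lapX g v x) = -IX g (gradX g u v) := by
  have hgH := hg.toIsHermitian
  have cu := INT.SmoothFn.continuous hu
  have cv := INT.SmoothFn.continuous hv
  have c1 := INT.SmoothFn.continuous (smoothFn_lapX hgH hu)
  have c2 := INT.SmoothFn.continuous (smoothFn_lapX hgH hv)
  have c3 := INT.SmoothFn.continuous (smoothFn_gradX hgH hu hv)
  have h := IX_lapX hg (sm_mul hu hv)
  have e1 : lapX g (fun x => u x * v x) = fun x => (u x * lapX g v x + v x * lapX g u x) +
      2 * gradX g u v x := funext fun x => lapX_mul_green hgH hu hv x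
  have s1 := IX_add hgH (f := fun x => u x * lapX g v x + v x * lapX g u x)
    (f' := fun x => 2 * gradX g u v x) ((cu.mul c2).add (cv.mul c1)) (continuous_const.mul c3)
  have s2 := IX_add hgH (f := fun x => u x * lapX g v x) (f' := fun x => v x * lapX g u x)
    (cu.mul c2) (cv.mul c1)
  have s3 := IX_const_mul (g := g) (f := gradX g u v) 2
  have s4 := IX_green hg hu hv
  rw [e1, s1, s2, s3, s4] at h
  linarith

end

end Vale.Agent.P272.K.AMP
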