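import Vale.Agent.P272.K.INT.Global
import Mathlib.MeasureTheory.Measure.WithDensityFinite
import Mathlib.MeasureTheory.Function.L1Space.Integrable

/-! The volume measure of a Hermitian metric, as a Borel measure on `X`. -/

open scoped Manifold ContDiff ComplexOrder ComplexConjugate Topology ENNReal
open MeasureTheory Set Filter

noncomputable section

namespace Vale.Agent.P272.K.AMP

open INT (IsDensity intX part Part)

set_option linter.unusedSectionVars false
set_option linter.style.haveILetI false

variable {n : ℕ} {X : Type*} [TopologicalSpace X] [ChartedSpace (Cm n) X]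
  [IsManifold 𝓘(ℂ, Cm n) ω X] [T2Space X] [CompactSpace X] [MeasurableSpace X] [BorelSpace X]

/-- the piece of the measure in the `i`-th chart of the partition -/
def volPiece (D : Chart n X → Cm n → ℝ) (i : Fin (part n X).N) : Measure (Cm n) :=
  (volume.restrict ((part n X).e i).target).withDensity fun z =>
    ENNReal.ofReal ((part n X).ρ i (((part n X).e i).symm z) * D ((part n X).e i) z)

/-- the measure on `X` given by the density `D` -/
def volD (D : Chart n X → Cm n → ℝ) : Measure X :=
  ∑ i, (volPiece D i).map ((part n X).e i).symm

/-- the volume measure of the metric `g` -/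
def volX (g : Chart n X → Cm n → Matrix (Fin n) (Fin n) ℂ) : Measure X :=
  volD fun e z => (g e z).det.re

lemma aemeasurable_symm (D : Chart n X → Cm n → ℝ)
    (i : Fin (part n X).N) : AEMeasurable ((part n X).e i).symm (volPiece D i) := by
  have h1 : AEMeasurable ((part n X).e i).symm (volume.restrict ((part n X).e i).target) :=
    ((part n X).e i).continuousOn_symm.aemeasurable
      ((part n X).e i).open_target.measurableSet
  exact h1.mono_ac (withDensity_absolutelyContinuous _ _)

lemma dens_aemeasurable {D : Chart n X → Cm n → ℝ} (hD : IsDensity D) (i : Fin (part n X).N) :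
    AEMeasurable (fun z => (part n X).ρ i (((part n X).e i).symm z) * D ((part n X).e i) z)
      (volume.restrict ((part n X).e i).target) :=
  ((((part n X).cont i).comp_continuousOn ((part n X).e i).continuousOn_symm).mul
    (hD.continuousOn ((part n X).mem i))).aemeasurable ((part n X).e i).open_target.measurableSet

lemma dens_nonneg {D : Chart n X → Cm n → ℝ} (h0 : ∀ e x, At e x → 0 ≤ D e (e x))
    (i : Fin (part n X).N) {z : Cm n} (hz : z ∈ ((part n X).e i).target) :
    0 ≤ (part n X).ρ i (((part n X).e i).symm z) * D ((part n X).e i) z := by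
  have := h0 ((part n X).e i) (((part n X).e i).symm z)
    ⟨(part n X).mem i, ((part n X).e i).map_target hz⟩
  rw [((part n X).e i).right_inv hz] at this
  exact mul_nonneg ((part n X).nonneg i _) this

theorem isFiniteMeasure_volD {D : Chart n X → Cm n → ℝ} (hD : IsDensity D) :
    IsFiniteMeasure (volD D) := by
  have h1 : ∀ i, IsFiniteMeasure (volPiece D i) := fun i =>
    isFiniteMeasure_withDensity_ofReal
      (INT.integrableOn_part (part n X) hD i).2
  refine ⟨?_⟩
  unfold volD
  rw [Measure.finsetSum_apply]
  refine ENNReal.sum_lt_top.2 fun i _ => ?_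
  haveI := h1 i
  exact measure_lt_top _ _

/-- the integral of a continuous function for the measure `volD D` is `intX (f D)` -/
theorem integral_volD {D : Chart n X → Cm n → ℝ} (hD : IsDensity D)
    (h0 : ∀ e x, At e x → 0 ≤ D e (e x)) {f : X → ℝ} (hf : Continuous f) :
    ∫ x, f x ∂(volD D) = intX fun e z => f (e.symm z) * D e z := by
  have hfin := isFiniteMeasure_volD hD
  have hpf : ∀ i, IsFiniteMeasure (volPiece D i) := fun i =>
    isFiniteMeasure_withDensity_ofReal (INT.integrableOn_part (part n X) hD i).2
  obtain ⟨C, hC⟩ := (isCompact_range hf).isBounded.exists_norm_le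
  have hfb : ∀ x, ‖f x‖ ≤ C := fun x => hC _ ⟨x, rfl⟩
  unfold volD intX
  rw [integral_finsetSum_measure]
  · refine Finset.sum_congr rfl fun i _ => ?_
    rw [integral_map (aemeasurable_symm D i) hf.aestronglyMeasurable]
    unfold volPiece
    have h1 : AEMeasurable (fun z => ENNReal.ofReal
        ((part n X).ρ i (((part n X).e i).symm z) * D ((part n X).e i) z))
        (volume.restrict ((part n X).e i).target) := (dens_aemeasurable hD i).ennreal_ofReal
    rw [integral_withDensity_eq_integral_toReal_smul₀ h1
      (Eventually.of_forall fun z => ENNReal.ofReal_lt_top)]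
    refine setIntegral_congr_fun ((part n X).e i).open_target.measurableSet fun z hz => ?_
    simp only [smul_eq_mul, ENNReal.toReal_ofReal (dens_nonneg h0 i hz)]
    ring
  · intro i _
    haveI := hpf i
    refine Integrable.of_bound hf.aestronglyMeasurable C (Eventually.of_forall hfb)

lemma isDensity_det_metric {g : Chart n X → Cm n → Matrix (Fin n) (Fin n) ℂ} (hg : IsHermitian g) :
    IsDensity fun e z => (g e z).det.re :=
  INT.isDensity_det hg.change hg.smooth

lemma det_metric_pos {g : Chart n X → Cm n → Matrix (Fin n) (Fin n) ℂ} (hg : IsHermitian g)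
    (e : Chart n X) (x : X) (hx : At e x) : 0 < (g e (e x)).det.re :=
  (Complex.lt_def.1 (hg.posDef e x hx).det_pos).1

theorem isFiniteMeasure_volX {g : Chart n X → Cm n → Matrix (Fin n) (Fin n) ℂ}
    (hg : IsHermitian g) : IsFiniteMeasure (volX g) :=
  isFiniteMeasure_volD (isDensity_det_metric hg)

/-- the integral of a continuous function for `volX g` is `intX (f det g)` -/
theorem integral_volX {g : Chart n X → Cm n → Matrix (Fin n) (Fin n) ℂ} (hg : IsHermitian g)
    {f : X → ℝ} (hf : Continuous f) :
    ∫ x, f x ∂(volX g) = intX fun e z => f (e.symm z) * (g e z).det.re :=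
  integral_volD (isDensity_det_metric hg) (fun e x hx => (det_metric_pos hg e x hx).le) hf

/-- the total volume -/
theorem volX_real_univ {g : Chart n X → Cm n → Matrix (Fin n) (Fin n) ℂ} (hg : IsHermitian g) :
    (volX g).real univ = intX fun e z => (g e z).det.re := by
  have h := integral_volX hg (f := fun _ => (1 : ℝ)) continuous_const
  simp only [integral_const, smul_eq_mul, mul_one, one_mul] at h
  exact h

/-- continuous functions are integrable -/
theorem integrable_volX {g : Chart n X → Cm n → Matrix (Fin n) (Fin n) ℂ} (hg : IsHermitian g)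
    {f : X → ℝ} (hf : Continuous f) : Integrable f (volX g) := by
  have hfin := isFiniteMeasure_volX hg
  obtain ⟨C, hC⟩ := (isCompact_range hf).isBounded.exists_norm_le
  exact Integrable.of_bound hf.aestronglyMeasurable C (Eventually.of_forall fun x => hC _ ⟨x, rfl⟩)

end Vale.Agent.P272.K.AMP
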