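import Vale.Agent.P272.K.AMP.Main.Ample
import Vale.Agent.P272.K.AMP.Pole.Final

/-!
# Full ampleness for Hermitian metrics of negative holomorphic sectional curvature
-/

open scoped Manifold ContDiff ComplexOrder Topology
open Complex Set Filter MeasureTheory

noncomputable section

namespace Vale.Agent.P272.K.AMP.Main

/-- Step 1 -/
theorem poleBlock {n : ℕ} (hn : 2 ≤ n) (X : Type) [TopologicalSpace X] [ChartedSpace (Cm n) X]
    [IsManifold 𝓘(ℂ, Cm n) ω X] [T2Space X] [CompactSpace X] : PoleBlock n X := by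
  obtain ⟨K, hK, H⟩ := Pole.exists_poleFn n hn
  refine ⟨max K 1, le_max_right _ _, fun g hg hR U hU x hx => ?_⟩
  obtain ⟨G, f0, P⟩ := H X g hg hR x U (hU.mem_nhds hx)
  have hK1 : K ≤ max K 1 := le_max_left _ _
  have hG0 : ∀ y, 0 < G y := fun y => lt_of_lt_of_le one_pos (P.one_le y)
  refine ⟨f0, G, P.smf, P.smG, P.f0_nonneg, fun y hy => ?_, P.one_le, P.eq, fun y => ?_,
    fun y hy => ?_, ?_, P.mass_le.trans hK1⟩
  · exact image_eq_zero_of_notMem_tsupport fun h => hy (P.supp h)
  · exact (P.f0_le y).trans (mul_le_mul_of_nonneg_right hK1 (Real.rpow_nonneg (hG0 y).le _))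
  · exact (P.grad_le y hy).trans (mul_le_mul_of_nonneg_right hK1 (Real.rpow_nonneg (hG0 y).le _))
  · refine le_trans ?_ P.mass_ge
    rw [one_div]
    exact inv_anti₀ hK hK1

/-- **Full ampleness**: `K_X > 0` for a Hermitian metric of negative holomorphic sectional
curvature on a compact connected Kähler manifold. -/
theorem ampleNeg (n : ℕ) (hn : 1 ≤ n) : AmpleDimC n :=
  ample_of_threeC (fun _ hn => ampleDimC_of_pole hn fun X _ _ _ _ _ => poleBlock (by omega) X) n hn

end Vale.Agent.P272.K.AMP.Main
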