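import Vale.Agent.P272.K.P1.WeakForm

/-!
# Self-adjointness of the Laplacian of a Kähler metric, in one chart
-/

open scoped ContDiff Topology ComplexConjugate ComplexOrder
open TopologicalSpace (Opens)
open Matrix MeasureTheory

set_option linter.all false

noncomputable section

namespace Vale.Agent.P272.K.AMP

open P1

variable {n : ℕ} {O : Opens (Cm n)} {g : Cm n → Matrix (Fin n) (Fin n) ℂ}

/-- `det g · F · g^{ji}` -/
def Mg (g : Cm n → Matrix (Fin n) (Fin n) ℂ) (F : Cm n → ℂ) (i j : Fin n) (z : Cm n) : ℂ :=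
  (g z).det * (F z * (g z)⁻¹ j i)

lemma smooth_Mg (hg : Met O g) {F : Cm n → ℂ} (hF : ∀ z ∈ O, ContDiffAt ℝ ∞ F z) (i j : Fin n)
    (z : Cm n) (hz : z ∈ O) : ContDiffAt ℝ ∞ (Mg g F i j) z :=
  (smooth_det hg z hz).mul ((hF z hz).mul (hg.smooth_inv j i z hz))

lemma mk_Mg (hg : Met O g)
    (hc : ∀ z ∈ O, ∀ i j l, dz l (fun y => g y i j) z = dz i (fun y => g y l j) z)
    {F : Cm n → ℂ} (hF : ∀ z ∈ O, ContDiffAt ℝ ∞ F z) (i j : Fin n) :
    Sm.mk (Mg g F i j) (smooth_Mg hg hF i j) =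
    (hg.kmet hc).G.det * (Sm.mk F hF * (hg.kmet hc).Gi j i) := by
  refine Sm.ev_ext fun x => ?_
  have e0 : Sm.evM x (hg.kmet hc).G = g x := hg.evM_M x
  have e1 : Sm.evM x (hg.kmet hc).Gi = (g x)⁻¹ := hg.evM_Mi x
  have e2 : Sm.ev x ((hg.kmet hc).Gi j i) = (g x)⁻¹ j i := by rw [← Sm.evM_apply, e1]
  rw [Sm.ev_mk, map_mul, map_mul, e2, Sm.ev_det, e0, Sm.ev_mk]
  rfl

/-- the divergence identity -/
lemma sum_dz_Mg (hg : Met O g)
    (hc : ∀ z ∈ O, ∀ i j l, dz l (fun y => g y i j) z = dz i (fun y => g y l j) z)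
    {F : Cm n → ℂ} (hF : ∀ z ∈ O, ContDiffAt ℝ ∞ F z) (x : O) :
    ∑ i, ∑ j, dz i (dzb j (Mg g F i j)) x =
      (g x).det * ∑ i, ∑ j, (g x)⁻¹ j i * dz i (dzb j F) x := by
  have key := congrArg (Sm.ev x) ((hg.kmet hc).div_scalar (Sm.mk F hF))
  have e0 : Sm.evM x (hg.kmet hc).G = g x := hg.evM_M x
  have e1 : Sm.evM x (hg.kmet hc).Gi = (g x)⁻¹ := hg.evM_Mi x
  have e2 : ∀ i j, Sm.ev x ((hg.kmet hc).Gi j i) = (g x)⁻¹ j i := fun i j => by
    rw [← Sm.evM_apply, e1]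
  simp only [← mk_Mg hg hc hF, Sm.W_d, Sm.W_db, map_sum, map_mul, Sm.ev_d_db_mk,
    e2, Sm.ev_det, e0] at key
  exact key

lemma trace_re_smooth (hg : Met O g) {F : Cm n → ℝ} (hF : ∀ z ∈ O, ContDiffAt ℝ ∞ F z)
    (z : Cm n) (hz : z ∈ O) :
    ContDiffAt ℝ ∞ (fun z => ((g z)⁻¹ * cHess F z).trace) z := by
  refine contDiffAt_trace_mul (fun i j => hg.smooth_inv i j z hz) fun i j => ?_
  exact contDiffAt_cHess (hF z hz) (le_of_eq rfl) i j

/-- **Green's formula in one chart.** -/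
theorem local_green (hg : Met O g)
    (hc : ∀ z ∈ O, ∀ i j l, dz l (fun y => g y i j) z = dz i (fun y => g y l j) z)
    {ψ F : Cm n → ℝ} (hψ : ContDiff ℝ ∞ ψ) (hψc : HasCompactSupport ψ)
    (hψU : tsupport ψ ⊆ (O : Set (Cm n))) (hF : ∀ z ∈ O, ContDiffAt ℝ ∞ F z) :
    ∫ z in (O : Set (Cm n)), ψ z * (((g z)⁻¹ * cHess F z).trace.re * (g z).det.re) =
      ∫ z in (O : Set (Cm n)), F z * (((g z)⁻¹ * cHess ψ z).trace.re * (g z).det.re) := by
  set Ψ : Cm n → ℂ := fun z => (ψ z : ℂ) with hΨ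
  set FC : Cm n → ℂ := fun z => (F z : ℂ) with hFC
  have hFCs : ∀ z ∈ O, ContDiffAt ℝ ∞ FC z := fun z hz => ofReal_contDiffAt (hF z hz)
  have hΨs : ContDiff ℝ ∞ Ψ := Complex.ofRealCLM.contDiff.comp hψ
  have hΨc : HasCompactSupport Ψ := hψc.comp_left (g := fun r : ℝ => (r : ℂ)) Complex.ofReal_zero
  have hΨt : tsupport Ψ ⊆ tsupport ψ := by
    refine closure_mono fun z hz => ?_
    intro h0
    apply hz
    simp only [hΨ, h0, Complex.ofReal_zero]
  have hΨU : tsupport Ψ ⊆ (O : Set (Cm n)) := hΨt.trans hψU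
  have hM : ∀ i j, ∀ z ∈ (O : Set (Cm n)), ContDiffAt ℝ ∞ (Mg g FC i j) z := fun i j z hz =>
    smooth_Mg hg hFCs i j z hz
  have hM2 : ∀ i j, ∀ z ∈ (O : Set (Cm n)), ContDiffAt ℝ ∞ (dz i (dzb j (Mg g FC i j))) z :=
    fun i j z hz => INT.smooth_dz (INT.smooth_dzb (hM i j z hz))
  have int1 : ∀ i j, Integrable fun z => Ψ z * dz i (dzb j (Mg g FC i j)) z := fun i j =>
    integrable_mul_cut hΨs hΨc hΨU (hM2 i j)
  have int2 : ∀ i j, Integrable fun z => dz i (dzb j Ψ) z * Mg g FC i j z := fun i j => by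
    have t1 : tsupport (dz i (dzb j Ψ)) ⊆ tsupport Ψ := (tsupport_dz i).trans (tsupport_dzb j)
    exact integrable_mul_cut (contDiff_dz (contDiff_dzb hΨs j) i)
      (hΨc.mono' (subset_closure.trans t1)) (t1.trans hΨU) (hM i j)
  have s2 : ∫ z, (∑ i, ∑ j, Ψ z * dz i (dzb j (Mg g FC i j)) z).re =
      ∫ z, (∑ i, ∑ j, dz i (dzb j Ψ) z * Mg g FC i j z).re := by
    have r1 : ∫ z, (∑ i, ∑ j, Ψ z * dz i (dzb j (Mg g FC i j)) z).re =
        (∫ z, ∑ i, ∑ j, Ψ z * dz i (dzb j (Mg g FC i j)) z).re :=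
      integral_re (integrable_finsetSum _ fun i _ => integrable_finsetSum _ fun j _ => int1 i j)
    have r2 : ∫ z, (∑ i, ∑ j, dz i (dzb j Ψ) z * Mg g FC i j z).re =
        (∫ z, ∑ i, ∑ j, dz i (dzb j Ψ) z * Mg g FC i j z).re :=
      integral_re (integrable_finsetSum _ fun i _ => integrable_finsetSum _ fun j _ => int2 i j)
    rw [r1, r2]
    congr 1
    rw [integral_finsetSum _ fun i _ => integrable_finsetSum _ fun j _ => int1 i j,
      integral_finsetSum _ fun i _ => integrable_finsetSum _ fun j _ => int2 i j]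
    refine Finset.sum_congr rfl fun i _ => ?_
    rw [integral_finsetSum _ fun j _ => int1 i j, integral_finsetSum _ fun j _ => int2 i j]
    exact Finset.sum_congr rfl fun j _ => ibp2 hΨs hΨc hΨU (hM i j) i j
  have tr_eq : ∀ (f : Cm n → ℝ) z, ((g z)⁻¹ * cHess f z).trace =
      ∑ i, ∑ j, (g z)⁻¹ j i * dz i (dzb j fun y => (f y : ℂ)) z := by
    intro f z
    rw [Matrix.trace_mul_comm]
    simp only [Matrix.trace, Matrix.diag_apply, Matrix.mul_apply]
    refine Finset.sum_congr rfl fun i _ => Finset.sum_congr rfl fun j _ => ?_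
    rw [mul_comm]; rfl
  have hdet : ∀ z ∈ O, (g z).det = (((g z).det.re : ℝ) : ℂ) := fun z hz =>
    (C2.det_re_eq (hg.pos z hz)).symm
  have e1 : ∫ z in (O : Set (Cm n)), ψ z * (((g z)⁻¹ * cHess F z).trace.re * (g z).det.re) =
      ∫ z, (∑ i, ∑ j, Ψ z * dz i (dzb j (Mg g FC i j)) z).re := by
    have e3 : ∫ z in (O : Set (Cm n)), (∑ i, ∑ j, Ψ z * dz i (dzb j (Mg g FC i j)) z).re =
        ∫ z, (∑ i, ∑ j, Ψ z * dz i (dzb j (Mg g FC i j)) z).re := by
      refine setIntegral_eq_integral_of_forall_compl_eq_zero fun z hz => ?_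
      have h1 : Ψ z = 0 := image_eq_zero_of_notMem_tsupport fun h' => hz (hΨU h')
      simp [h1]
    rw [← e3]
    refine setIntegral_congr_fun O.isOpen.measurableSet fun z hz => ?_
    show ψ z * (((g z)⁻¹ * cHess F z).trace.re * (g z).det.re) =
      (∑ i, ∑ j, Ψ z * dz i (dzb j (Mg g FC i j)) z).re
    have k := sum_dz_Mg hg hc hFCs ⟨z, hz⟩
    simp only [← Finset.mul_sum]
    rw [hΨ]
    simp only [Complex.re_ofReal_mul]
    change _ = ψ z * (∑ i, ∑ j, dz i (dzb j (Mg g FC i j)) (⟨z, hz⟩ : O)).re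
    rw [k, ← tr_eq F z, hdet z hz, Complex.re_ofReal_mul]
    simp only [Complex.ofReal_re]
    ring
  have e2 : ∫ z in (O : Set (Cm n)), F z * (((g z)⁻¹ * cHess ψ z).trace.re * (g z).det.re) =
      ∫ z, (∑ i, ∑ j, dz i (dzb j Ψ) z * Mg g FC i j z).re := by
    have e3 : ∫ z in (O : Set (Cm n)), (∑ i, ∑ j, dz i (dzb j Ψ) z * Mg g FC i j z).re =
        ∫ z, (∑ i, ∑ j, dz i (dzb j Ψ) z * Mg g FC i j z).re := by
      refine setIntegral_eq_integral_of_forall_compl_eq_zero fun z hz => ?_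
      have h1 : z ∉ tsupport Ψ := fun h' => hz (hΨU h')
      have h2 : ∀ i j, dz i (dzb j Ψ) z = 0 := fun i j =>
        image_eq_zero_of_notMem_tsupport fun h' => h1 (((tsupport_dz i).trans (tsupport_dzb j)) h')
      simp [h2]
    rw [← e3]
    refine setIntegral_congr_fun O.isOpen.measurableSet fun z hz => ?_
    show F z * (((g z)⁻¹ * cHess ψ z).trace.re * (g z).det.re) =
      (∑ i, ∑ j, dz i (dzb j Ψ) z * Mg g FC i j z).re
    have t2 : ∑ i, ∑ j, dz i (dzb j Ψ) z * Mg g FC i j z =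
        ((F z * (g z).det.re : ℝ) : ℂ) * ((g z)⁻¹ * cHess ψ z).trace := by
      rw [tr_eq ψ z, Finset.mul_sum]
      refine Finset.sum_congr rfl fun i _ => ?_
      rw [Finset.mul_sum]
      refine Finset.sum_congr rfl fun j _ => ?_
      rw [Mg, hdet z hz, hFC]
      simp only [Complex.ofReal_re]
      push_cast
      ring
    rw [t2, Complex.re_ofReal_mul]
    ring
  rw [e1, s2, ← e2]

end Vale.Agent.P272.K.AMP
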